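import Vale.Agent.P052.CliqueSpec

namespace Vale.Agent.P052

noncomputable def dchk (u : ℕ) : Bool :=
  Nat.beq (Nat.mod (Nat.div (nth nbs u) (Nat.pow 2 u)) 2) 0

theorem db : allFrom dchk 0 326 = true := by decide +kernel

theorem adj_self (u : Fin 326) : adj u u = false := by
  have h : dchk u = true := allFrom_at dchk 0 326 u db (Nat.zero_le _) (by have := u.2; omega)
  have h1 : nth nbs u / 2 ^ (u : ℕ) % 2 = 0 := Nat.eq_of_beq_eq_true h
  unfold adj
  rw [Nat.testBit_eq_decide_div_mod_eq, h1]
  rfl

theorem vec_self (u : Fin 326) :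
    ∑ k, vec u k * vec u k = if (u : ℕ) < 320 then 60 else 52 := by
  have h := gram_int u u
  rw [adj_self] at h
  by_cases hu : 320 ≤ (u : ℕ)
  · have hu' : ¬ (u : ℕ) < 320 := by omega
    simp only [hu, hu', and_self, if_true, if_false, Bool.false_eq_true] at h ⊢
    linarith
  · have hu' : (u : ℕ) < 320 := by omega
    simp only [hu, hu', and_self, if_true, if_false, Bool.false_eq_true] at h ⊢
    linarith

theorem vec_off (u v : Fin 326) (huv : u ≠ v) :
    (∑ k, vec u k * vec v k) + (if 320 ≤ (u : ℕ) ∧ 320 ≤ (v : ℕ) then 8 else 0) =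
      if adj u v then 12 else -4 := by
  rw [gram_int u v, if_neg huv]
  cases adj u v <;> simp

end Vale.Agent.P052
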