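import Vale.Agent.P052.CliqueDef

namespace Vale.Agent.P052

theorem cb0 : allFrom cchk 0 1 = true := by decide +kernel

theorem cb4 : allFrom cchk 4 1 = true := by decide +kernel

theorem cb8 : allFrom cchk 8 1 = true := by decide +kernel

theorem cb12 : allFrom cchk 12 1 = true := by decide +kernel

theorem cb16 : allFrom cchk 16 1 = true := by decide +kernel

theorem cb20 : allFrom cchk 20 1 = true := by decide +kernel

theorem cb24 : allFrom cchk 24 1 = true := by decide +kernel

theorem cb28 : allFrom cchk 28 1 = true := by decide +kernel

theorem cb32 : allFrom cchk 32 1 = true := by decide +kernel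

theorem cb37 : allFrom cchk 37 1 = true := by decide +kernel

theorem cb41 : allFrom cchk 41 1 = true := by decide +kernel

theorem cb44 : allFrom cchk 44 1 = true := by decide +kernel

theorem cb49 : allFrom cchk 49 1 = true := by decide +kernel

theorem cb54 : allFrom cchk 54 1 = true := by decide +kernel

theorem cb57 : allFrom cchk 57 1 = true := by decide +kernel

theorem cb63 : allFrom cchk 63 1 = true := by decide +kernel

theorem cb66 : allFrom cchk 69 3 = true := by decide +kernel

theorem cb70 : allFrom cchk 81 3 = true := by decide +kernel

theorem cb74 : allFrom cchk 93 3 = true := by decide +kernel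

theorem cb77 : allFrom cchk 103 4 = true := by decide +kernel

theorem cb81 : allFrom cchk 119 4 = true := by decide +kernel

theorem cb85 : allFrom cchk 143 10 = true := by decide +kernel

theorem cb89 : allFrom cchk 202 20 = true := by decide +kernel

theorem cb94 : allFrom cchk 302 20 = true := by decide +kernel

theorem hb0 : allFrom rchk 0 40 = true := by decide +kernel

theorem hb1 : allFrom rchk 40 40 = true := by decide +kernel

theorem hb2 : allFrom rchk 80 40 = true := by decide +kernel

theorem hb3 : allFrom rchk 120 40 = true := by decide +kernel

theorem hb4 : allFrom rchk 160 40 = true := by decide +kernel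

theorem hb5 : allFrom rchk 200 40 = true := by decide +kernel

theorem hb6 : allFrom rchk 240 40 = true := by decide +kernel

theorem hb7 : allFrom rchk 280 40 = true := by decide +kernel

theorem hb8 : allFrom rchk 320 6 = true := by decide +kernel

end Vale.Agent.P052
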