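import Vale.Agent.P052.CliqueDef

namespace Vale.Agent.P052

theorem cb1 : allFrom cchk 1 1 = true := by decide +kernel

theorem cb5 : allFrom cchk 5 1 = true := by decide +kernel

theorem cb9 : allFrom cchk 9 1 = true := by decide +kernel

theorem cb13 : allFrom cchk 13 1 = true := by decide +kernel

theorem cb17 : allFrom cchk 17 1 = true := by decide +kernel

theorem cb21 : allFrom cchk 21 1 = true := by decide +kernel

theorem cb25 : allFrom cchk 25 1 = true := by decide +kernel

theorem cb29 : allFrom cchk 29 1 = true := by decide +kernel

theorem cb33 : allFrom cchk 33 1 = true := by decide +kernel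

theorem cb36 : allFrom cchk 36 1 = true := by decide +kernel

theorem cb40 : allFrom cchk 40 1 = true := by decide +kernel

theorem cb45 : allFrom cchk 45 1 = true := by decide +kernel

theorem cb48 : allFrom cchk 48 1 = true := by decide +kernel

theorem cb52 : allFrom cchk 52 1 = true := by decide +kernel

theorem cb56 : allFrom cchk 56 1 = true := by decide +kernel

theorem cb61 : allFrom cchk 61 1 = true := by decide +kernel

theorem cb67 : allFrom cchk 72 3 = true := by decide +kernel

theorem cb69 : allFrom cchk 78 3 = true := by decide +kernel

theorem cb73 : allFrom cchk 90 3 = true := by decide +kernel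

theorem cb78 : allFrom cchk 107 4 = true := by decide +kernel

theorem cb82 : allFrom cchk 123 4 = true := by decide +kernel

theorem cb86 : allFrom cchk 153 13 = true := by decide +kernel

theorem cb90 : allFrom cchk 222 20 = true := by decide +kernel

theorem cb92 : allFrom cchk 262 20 = true := by decide +kernel

theorem cb93 : allFrom cchk 282 20 = true := by decide +kernel

end Vale.Agent.P052
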