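import Vale.Agent.P052.CliqueDef

namespace Vale.Agent.P052

theorem cb2 : allFrom cchk 2 1 = true := by decide +kernel

theorem cb7 : allFrom cchk 7 1 = true := by decide +kernel

theorem cb11 : allFrom cchk 11 1 = true := by decide +kernel

theorem cb15 : allFrom cchk 15 1 = true := by decide +kernel

theorem cb19 : allFrom cchk 19 1 = true := by decide +kernel

theorem cb23 : allFrom cchk 23 1 = true := by decide +kernel

theorem cb27 : allFrom cchk 27 1 = true := by decide +kernel

theorem cb31 : allFrom cchk 31 1 = true := by decide +kernel

theorem cb35 : allFrom cchk 35 1 = true := by decide +kernel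

theorem cb39 : allFrom cchk 39 1 = true := by decide +kernel

theorem cb43 : allFrom cchk 43 1 = true := by decide +kernel

theorem cb47 : allFrom cchk 47 1 = true := by decide +kernel

theorem cb51 : allFrom cchk 51 1 = true := by decide +kernel

theorem cb55 : allFrom cchk 55 1 = true := by decide +kernel

theorem cb58 : allFrom cchk 58 1 = true := by decide +kernel

theorem cb60 : allFrom cchk 60 1 = true := by decide +kernel

theorem cb64 : allFrom cchk 64 2 = true := by decide +kernel

theorem cb68 : allFrom cchk 75 3 = true := by decide +kernel

theorem cb72 : allFrom cchk 87 3 = true := by decide +kernel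

theorem cb76 : allFrom cchk 99 4 = true := by decide +kernel

theorem cb80 : allFrom cchk 115 4 = true := by decide +kernel

theorem cb84 : allFrom cchk 134 9 = true := by decide +kernel

theorem cb88 : allFrom cchk 182 20 = true := by decide +kernel

end Vale.Agent.P052
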