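import Vale.Agent.P052.CliqueDef

namespace Vale.Agent.P052

theorem cb3 : allFrom cchk 3 1 = true := by decide +kernel

theorem cb6 : allFrom cchk 6 1 = true := by decide +kernel

theorem cb10 : allFrom cchk 10 1 = true := by decide +kernel

theorem cb14 : allFrom cchk 14 1 = true := by decide +kernel

theorem cb18 : allFrom cchk 18 1 = true := by decide +kernel

theorem cb22 : allFrom cchk 22 1 = true := by decide +kernel

theorem cb26 : allFrom cchk 26 1 = true := by decide +kernel

theorem cb30 : allFrom cchk 30 1 = true := by decide +kernel

theorem cb34 : allFrom cchk 34 1 = true := by decide +kernel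

theorem cb38 : allFrom cchk 38 1 = true := by decide +kernel

theorem cb42 : allFrom cchk 42 1 = true := by decide +kernel

theorem cb46 : allFrom cchk 46 1 = true := by decide +kernel

theorem cb50 : allFrom cchk 50 1 = true := by decide +kernel

theorem cb53 : allFrom cchk 53 1 = true := by decide +kernel

theorem cb59 : allFrom cchk 59 1 = true := by decide +kernel

theorem cb62 : allFrom cchk 62 1 = true := by decide +kernel

theorem cb65 : allFrom cchk 66 3 = true := by decide +kernel

theorem cb71 : allFrom cchk 84 3 = true := by decide +kernel

theorem cb75 : allFrom cchk 96 3 = true := by decide +kernel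

theorem cb79 : allFrom cchk 111 4 = true := by decide +kernel

theorem cb83 : allFrom cchk 127 7 = true := by decide +kernel

theorem cb87 : allFrom cchk 166 16 = true := by decide +kernel

theorem cb91 : allFrom cchk 242 20 = true := by decide +kernel

theorem cb95 : allFrom cchk 322 4 = true := by decide +kernel

end Vale.Agent.P052
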