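import Vale.Agent.P052.GramDef
import Vale.Agent.P052.DataH

namespace Vale.Agent.P052

noncomputable def low (x : ℕ) : ℕ := Nat.land x (Nat.sub x 1)

noncomputable def loopK (f : ℕ → Bool) (fuel : ℕ) : ℕ → Bool :=
  Nat.rec (fun _ => false) (fun _ ih cand =>
    cond (Nat.beq cand 0) true
      (cond (Nat.beq (low cand) 0) true
        (cond (f (Nat.land (low cand) (rowOf (Nat.mod (Nat.sub cand (low cand)) 347))))
          (ih (low cand)) false))) fuel

noncomputable def noK (k : ℕ) : ℕ → Bool :=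
  Nat.rec (fun cand => Nat.beq cand 0) (fun _ ih => loopK ih 400) k

noncomputable def cchk (v : ℕ) : Bool :=
  noK 4 (Nat.mul (Nat.div (nth nbs v) (Nat.pow 2 (Nat.succ v))) (Nat.pow 2 (Nat.succ v)))

noncomputable def rchk (t : ℕ) : Bool :=
  Nat.beq (rowOf (Nat.mod (Nat.pow 2 t) 347)) (nth nbs t)

end Vale.Agent.P052
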