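import Vale.Agent.P052.GramDef

namespace Vale.Agent.P052

theorem rb0 : allFrom chkrow 0 4 = true := by decide +kernel

theorem rb2 : allFrom chkrow 8 4 = true := by decide +kernel

theorem rb4 : allFrom chkrow 16 4 = true := by decide +kernel

theorem rb6 : allFrom chkrow 24 4 = true := by decide +kernel

theorem rb8 : allFrom chkrow 32 4 = true := by decide +kernel

theorem rb10 : allFrom chkrow 40 4 = true := by decide +kernel

theorem rb12 : allFrom chkrow 48 4 = true := by decide +kernel

theorem rb14 : allFrom chkrow 56 4 = true := by decide +kernel

theorem rb16 : allFrom chkrow 64 4 = true := by decide +kernel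

theorem rb18 : allFrom chkrow 72 4 = true := by decide +kernel

theorem rb20 : allFrom chkrow 80 4 = true := by decide +kernel

theorem rb22 : allFrom chkrow 88 4 = true := by decide +kernel

theorem rb24 : allFrom chkrow 96 4 = true := by decide +kernel

theorem rb26 : allFrom chkrow 104 4 = true := by decide +kernel

theorem rb28 : allFrom chkrow 112 4 = true := by decide +kernel

theorem rb30 : allFrom chkrow 120 4 = true := by decide +kernel

theorem rb32 : allFrom chkrow 128 4 = true := by decide +kernel

theorem rb34 : allFrom chkrow 136 4 = true := by decide +kernel

theorem rb36 : allFrom chkrow 144 4 = true := by decide +kernel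

theorem rb38 : allFrom chkrow 152 4 = true := by decide +kernel

theorem rb40 : allFrom chkrow 160 4 = true := by decide +kernel

theorem rb42 : allFrom chkrow 168 4 = true := by decide +kernel

theorem rb44 : allFrom chkrow 176 4 = true := by decide +kernel

theorem rb46 : allFrom chkrow 184 4 = true := by decide +kernel

theorem rb48 : allFrom chkrow 192 4 = true := by decide +kernel

theorem rb50 : allFrom chkrow 200 4 = true := by decide +kernel

theorem rb52 : allFrom chkrow 208 4 = true := by decide +kernel

theorem rb54 : allFrom chkrow 216 4 = true := by decide +kernel

theorem rb56 : allFrom chkrow 224 4 = true := by decide +kernel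

theorem rb58 : allFrom chkrow 232 4 = true := by decide +kernel

theorem rb60 : allFrom chkrow 240 4 = true := by decide +kernel

theorem rb62 : allFrom chkrow 248 4 = true := by decide +kernel

theorem rb64 : allFrom chkrow 256 4 = true := by decide +kernel

theorem rb66 : allFrom chkrow 264 4 = true := by decide +kernel

theorem rb68 : allFrom chkrow 272 4 = true := by decide +kernel

theorem rb70 : allFrom chkrow 280 4 = true := by decide +kernel

theorem rb72 : allFrom chkrow 288 4 = true := by decide +kernel

theorem rb74 : allFrom chkrow 296 4 = true := by decide +kernel

theorem rb76 : allFrom chkrow 304 4 = true := by decide +kernel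

theorem rb78 : allFrom chkrow 312 4 = true := by decide +kernel

theorem rb80 : allFrom chkrow 320 4 = true := by decide +kernel

end Vale.Agent.P052
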