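import Vale.Agent.P052.GramDef

namespace Vale.Agent.P052

theorem rb1 : allFrom chkrow 4 4 = true := by decide +kernel

theorem rb3 : allFrom chkrow 12 4 = true := by decide +kernel

theorem rb5 : allFrom chkrow 20 4 = true := by decide +kernel

theorem rb7 : allFrom chkrow 28 4 = true := by decide +kernel

theorem rb9 : allFrom chkrow 36 4 = true := by decide +kernel

theorem rb11 : allFrom chkrow 44 4 = true := by decide +kernel

theorem rb13 : allFrom chkrow 52 4 = true := by decide +kernel

theorem rb15 : allFrom chkrow 60 4 = true := by decide +kernel

theorem rb17 : allFrom chkrow 68 4 = true := by decide +kernel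

theorem rb19 : allFrom chkrow 76 4 = true := by decide +kernel

theorem rb21 : allFrom chkrow 84 4 = true := by decide +kernel

theorem rb23 : allFrom chkrow 92 4 = true := by decide +kernel

theorem rb25 : allFrom chkrow 100 4 = true := by decide +kernel

theorem rb27 : allFrom chkrow 108 4 = true := by decide +kernel

theorem rb29 : allFrom chkrow 116 4 = true := by decide +kernel

theorem rb31 : allFrom chkrow 124 4 = true := by decide +kernel

theorem rb33 : allFrom chkrow 132 4 = true := by decide +kernel

theorem rb35 : allFrom chkrow 140 4 = true := by decide +kernel

theorem rb37 : allFrom chkrow 148 4 = true := by decide +kernel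

theorem rb39 : allFrom chkrow 156 4 = true := by decide +kernel

theorem rb41 : allFrom chkrow 164 4 = true := by decide +kernel

theorem rb43 : allFrom chkrow 172 4 = true := by decide +kernel

theorem rb45 : allFrom chkrow 180 4 = true := by decide +kernel

theorem rb47 : allFrom chkrow 188 4 = true := by decide +kernel

theorem rb49 : allFrom chkrow 196 4 = true := by decide +kernel

theorem rb51 : allFrom chkrow 204 4 = true := by decide +kernel

theorem rb53 : allFrom chkrow 212 4 = true := by decide +kernel

theorem rb55 : allFrom chkrow 220 4 = true := by decide +kernel

theorem rb57 : allFrom chkrow 228 4 = true := by decide +kernel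

theorem rb59 : allFrom chkrow 236 4 = true := by decide +kernel

theorem rb61 : allFrom chkrow 244 4 = true := by decide +kernel

theorem rb63 : allFrom chkrow 252 4 = true := by decide +kernel

theorem rb65 : allFrom chkrow 260 4 = true := by decide +kernel

theorem rb67 : allFrom chkrow 268 4 = true := by decide +kernel

theorem rb69 : allFrom chkrow 276 4 = true := by decide +kernel

theorem rb71 : allFrom chkrow 284 4 = true := by decide +kernel

theorem rb73 : allFrom chkrow 292 4 = true := by decide +kernel

theorem rb75 : allFrom chkrow 300 4 = true := by decide +kernel

theorem rb77 : allFrom chkrow 308 4 = true := by decide +kernel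

theorem rb79 : allFrom chkrow 316 4 = true := by decide +kernel

theorem rb81 : allFrom chkrow 324 2 = true := by decide +kernel

end Vale.Agent.P052
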