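import Vale.Agent.P052.GramV
import Vale.Agent.P052.GramR0
import Vale.Agent.P052.GramR1
import Mathlib.Tactic.IntervalCases
import Mathlib.Data.Nat.Bitwise

namespace Vale.Agent.P052

open Finset

theorem vchk_all (i : ℕ) (hi : i < 326) : vchk i = true := by
  obtain ⟨b, k, hk, rfl⟩ : ∃ b k, k < 20 ∧ i = 20 * b + k :=
    ⟨i / 20, i % 20, Nat.mod_lt _ (by norm_num), (Nat.div_add_mod i 20).symm⟩
  have hb : b < 17 := by omega
  interval_cases b
  · exact allFrom_spec vchk 0 20 vb0 k (by omega)
  · exact allFrom_spec vchk 20 20 vb1 k (by omega)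
  · exact allFrom_spec vchk 40 20 vb2 k (by omega)
  · exact allFrom_spec vchk 60 20 vb3 k (by omega)
  · exact allFrom_spec vchk 80 20 vb4 k (by omega)
  · exact allFrom_spec vchk 100 20 vb5 k (by omega)
  · exact allFrom_spec vchk 120 20 vb6 k (by omega)
  · exact allFrom_spec vchk 140 20 vb7 k (by omega)
  · exact allFrom_spec vchk 160 20 vb8 k (by omega)
  · exact allFrom_spec vchk 180 20 vb9 k (by omega)
  · exact allFrom_spec vchk 200 20 vb10 k (by omega)
  · exact allFrom_spec vchk 220 20 vb11 k (by omega)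
  · exact allFrom_spec vchk 240 20 vb12 k (by omega)
  · exact allFrom_spec vchk 260 20 vb13 k (by omega)
  · exact allFrom_spec vchk 280 20 vb14 k (by omega)
  · exact allFrom_spec vchk 300 20 vb15 k (by omega)
  · exact allFrom_spec vchk 320 6 vb16 k (by omega)

theorem row_all (i : ℕ) (hi : i < 326) : chkrow i = true := by
  obtain ⟨b, k, hk, rfl⟩ : ∃ b k, k < 4 ∧ i = 4 * b + k :=
    ⟨i / 4, i % 4, Nat.mod_lt _ (by norm_num), (Nat.div_add_mod i 4).symm⟩
  have hb : b < 82 := by omega
  interval_cases b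
  · exact allFrom_spec chkrow 0 4 rb0 k (by omega)
  · exact allFrom_spec chkrow 4 4 rb1 k (by omega)
  · exact allFrom_spec chkrow 8 4 rb2 k (by omega)
  · exact allFrom_spec chkrow 12 4 rb3 k (by omega)
  · exact allFrom_spec chkrow 16 4 rb4 k (by omega)
  · exact allFrom_spec chkrow 20 4 rb5 k (by omega)
  · exact allFrom_spec chkrow 24 4 rb6 k (by omega)
  · exact allFrom_spec chkrow 28 4 rb7 k (by omega)
  · exact allFrom_spec chkrow 32 4 rb8 k (by omega)
  · exact allFrom_spec chkrow 36 4 rb9 k (by omega)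
  · exact allFrom_spec chkrow 40 4 rb10 k (by omega)
  · exact allFrom_spec chkrow 44 4 rb11 k (by omega)
  · exact allFrom_spec chkrow 48 4 rb12 k (by omega)
  · exact allFrom_spec chkrow 52 4 rb13 k (by omega)
  · exact allFrom_spec chkrow 56 4 rb14 k (by omega)
  · exact allFrom_spec chkrow 60 4 rb15 k (by omega)
  · exact allFrom_spec chkrow 64 4 rb16 k (by omega)
  · exact allFrom_spec chkrow 68 4 rb17 k (by omega)
  · exact allFrom_spec chkrow 72 4 rb18 k (by omega)
  · exact allFrom_spec chkrow 76 4 rb19 k (by omega)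
  · exact allFrom_spec chkrow 80 4 rb20 k (by omega)
  · exact allFrom_spec chkrow 84 4 rb21 k (by omega)
  · exact allFrom_spec chkrow 88 4 rb22 k (by omega)
  · exact allFrom_spec chkrow 92 4 rb23 k (by omega)
  · exact allFrom_spec chkrow 96 4 rb24 k (by omega)
  · exact allFrom_spec chkrow 100 4 rb25 k (by omega)
  · exact allFrom_spec chkrow 104 4 rb26 k (by omega)
  · exact allFrom_spec chkrow 108 4 rb27 k (by omega)
  · exact allFrom_spec chkrow 112 4 rb28 k (by omega)
  · exact allFrom_spec chkrow 116 4 rb29 k (by omega)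
  · exact allFrom_spec chkrow 120 4 rb30 k (by omega)
  · exact allFrom_spec chkrow 124 4 rb31 k (by omega)
  · exact allFrom_spec chkrow 128 4 rb32 k (by omega)
  · exact allFrom_spec chkrow 132 4 rb33 k (by omega)
  · exact allFrom_spec chkrow 136 4 rb34 k (by omega)
  · exact allFrom_spec chkrow 140 4 rb35 k (by omega)
  · exact allFrom_spec chkrow 144 4 rb36 k (by omega)
  · exact allFrom_spec chkrow 148 4 rb37 k (by omega)
  · exact allFrom_spec chkrow 152 4 rb38 k (by omega)
  · exact allFrom_spec chkrow 156 4 rb39 k (by omega)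
  · exact allFrom_spec chkrow 160 4 rb40 k (by omega)
  · exact allFrom_spec chkrow 164 4 rb41 k (by omega)
  · exact allFrom_spec chkrow 168 4 rb42 k (by omega)
  · exact allFrom_spec chkrow 172 4 rb43 k (by omega)
  · exact allFrom_spec chkrow 176 4 rb44 k (by omega)
  · exact allFrom_spec chkrow 180 4 rb45 k (by omega)
  · exact allFrom_spec chkrow 184 4 rb46 k (by omega)
  · exact allFrom_spec chkrow 188 4 rb47 k (by omega)
  · exact allFrom_spec chkrow 192 4 rb48 k (by omega)
  · exact allFrom_spec chkrow 196 4 rb49 k (by omega)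
  · exact allFrom_spec chkrow 200 4 rb50 k (by omega)
  · exact allFrom_spec chkrow 204 4 rb51 k (by omega)
  · exact allFrom_spec chkrow 208 4 rb52 k (by omega)
  · exact allFrom_spec chkrow 212 4 rb53 k (by omega)
  · exact allFrom_spec chkrow 216 4 rb54 k (by omega)
  · exact allFrom_spec chkrow 220 4 rb55 k (by omega)
  · exact allFrom_spec chkrow 224 4 rb56 k (by omega)
  · exact allFrom_spec chkrow 228 4 rb57 k (by omega)
  · exact allFrom_spec chkrow 232 4 rb58 k (by omega)
  · exact allFrom_spec chkrow 236 4 rb59 k (by omega)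
  · exact allFrom_spec chkrow 240 4 rb60 k (by omega)
  · exact allFrom_spec chkrow 244 4 rb61 k (by omega)
  · exact allFrom_spec chkrow 248 4 rb62 k (by omega)
  · exact allFrom_spec chkrow 252 4 rb63 k (by omega)
  · exact allFrom_spec chkrow 256 4 rb64 k (by omega)
  · exact allFrom_spec chkrow 260 4 rb65 k (by omega)
  · exact allFrom_spec chkrow 264 4 rb66 k (by omega)
  · exact allFrom_spec chkrow 268 4 rb67 k (by omega)
  · exact allFrom_spec chkrow 272 4 rb68 k (by omega)
  · exact allFrom_spec chkrow 276 4 rb69 k (by omega)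
  · exact allFrom_spec chkrow 280 4 rb70 k (by omega)
  · exact allFrom_spec chkrow 284 4 rb71 k (by omega)
  · exact allFrom_spec chkrow 288 4 rb72 k (by omega)
  · exact allFrom_spec chkrow 292 4 rb73 k (by omega)
  · exact allFrom_spec chkrow 296 4 rb74 k (by omega)
  · exact allFrom_spec chkrow 300 4 rb75 k (by omega)
  · exact allFrom_spec chkrow 304 4 rb76 k (by omega)
  · exact allFrom_spec chkrow 308 4 rb77 k (by omega)
  · exact allFrom_spec chkrow 312 4 rb78 k (by omega)
  · exact allFrom_spec chkrow 316 4 rb79 k (by omega)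
  · exact allFrom_spec chkrow 320 4 rb80 k (by omega)
  · exact allFrom_spec chkrow 324 2 rb81 k (by omega)

theorem dsum_eq (n : ℕ) : ∀ x, dsum n x = ∑ k ∈ range n, x / 16384 ^ k % 16384 := by
  induction n with
  | zero => intro x; rfl
  | succ n ih =>
    intro x
    have h : dsum (n + 1) x = x % 16384 + dsum n (x / 16384) := rfl
    rw [h, ih, Finset.sum_range_succ', add_comm]
    congr 1
    · apply Finset.sum_congr rfl
      intro k _
      rw [Nat.div_div_eq_div_mul, pow_succ, mul_comm]
    · simp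

theorem okd_spec (n : ℕ) : ∀ x, okd n x = true → ∀ k < n, x / 16384 ^ k % 16384 ≤ 8 := by
  induction n with
  | zero => intro x _ k hk; omega
  | succ n ih =>
    intro x h k hk
    have h1 : cond (Nat.ble (x % 16384) 8) (okd n (x / 16384)) false = true := h
    cases hb : Nat.ble (x % 16384) 8 with
    | false => rw [hb] at h1; simp at h1
    | true =>
      rw [hb] at h1
      simp only [cond_true] at h1
      cases k with
      | zero => simpa using Nat.le_of_ble_eq_true hb
      | succ k =>
        have := ih _ h1 k (by omega)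
        rwa [Nat.div_div_eq_div_mul, mul_comm, ← pow_succ] at this

theorem revd_eq (n : ℕ) : ∀ x acc, revd n x acc =
    acc * 16384 ^ n + bwd n (fun k => x / 16384 ^ k % 16384) := by
  induction n with
  | zero => intro x acc; simp [revd, bwd]
  | succ n ih =>
    intro x acc
    have h : revd (n + 1) x acc = revd n (x / 16384) (acc * 16384 + x % 16384) := rfl
    rw [h, ih]
    unfold bwd
    rw [Finset.sum_range_succ']
    have e : ∀ k ∈ range n, x / 16384 / 16384 ^ k % 16384 * 16384 ^ (n - 1 - k) =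
        x / 16384 ^ (k + 1) % 16384 * 16384 ^ (n + 1 - 1 - (k + 1)) := by
      intro k hk
      rw [Nat.div_div_eq_div_mul, ← pow_succ', Nat.add_sub_cancel]
      congr 2
      rw [Nat.sub_sub, add_comm 1 k]
    rw [Finset.sum_congr rfl e]
    simp only [Nat.add_sub_cancel, pow_zero, Nat.div_one, Nat.sub_zero, pow_succ]
    ring

theorem cond_false_right {a b : Bool} (h : cond a b false = true) : a = true ∧ b = true := by
  cases a <;> simp_all

theorem vchk_spec (i : ℕ) (hi : i < 326) :
    (∀ k < 65, nth xs i / 16384 ^ k % 16384 ≤ 8) ∧ nth xs i < 16384 ^ 65 ∧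
    nth ys i = bwd 65 (fun k => nth xs i / 16384 ^ k % 16384) +
      16384 ^ 65 * (4 * dsum 65 (nth xs i)) ∧
    nth xs i / 16384 ^ 63 % 16384 = (if 320 ≤ i then 6 else 4) ∧
    nth xs i / 16384 ^ 64 % 16384 = (if 320 ≤ i then 6 else 4) := by
  have h := vchk_all i hi
  unfold vchk at h
  obtain ⟨h1, h⟩ := cond_false_right h
  obtain ⟨h2, h⟩ := cond_false_right h
  obtain ⟨h3, h⟩ := cond_false_right h
  obtain ⟨h4, h5⟩ := cond_false_right h
  have hc : cond (Nat.ble 320 i) 6 4 = (if 320 ≤ i then 6 else 4) := by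
    by_cases hh : 320 ≤ i
    · rw [if_pos hh, Nat.ble_eq_true_of_le hh]; rfl
    · rw [if_neg hh]
      cases hb : Nat.ble 320 i with
      | false => rfl
      | true => exact absurd (Nat.le_of_ble_eq_true hb) hh
  refine ⟨okd_spec 65 _ h1, ?_, ?_, ?_, ?_⟩
  · have h6 := Nat.eq_of_beq_eq_true h2
    have h7 : nth xs i / 16384 ^ 65 = 0 := h6
    rcases Nat.div_eq_zero_iff.mp h7 with h8 | h8
    · exact absurd h8 (by positivity)
    · exact h8
  · have h6 := Nat.eq_of_beq_eq_true h3
    rw [h6, revd_eq]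
    simp
  · rw [← hc]; exact Nat.eq_of_beq_eq_true h4
  · rw [← hc]; exact Nat.eq_of_beq_eq_true h5

theorem rowc_spec (x base : ℕ) (l : List ℕ) : ∀ r d, rowc x base l r d = true →
    ∀ i < l.length, (x * nth l i) / 16384 ^ 64 % 16384 + 1044 =
      base + (nth l i / 16384 ^ 65 + (16 * (r / 2 ^ i % 2) + 64 * (d / 2 ^ i % 2))) := by
  induction l with
  | nil => intro r d _ i hi; simp at hi
  | cons y l ih =>
    intro r d h i hi
    have h1 : cond (Nat.beq (x * y / 16384 ^ 64 % 16384 + 1044)
      (base + (y / 16384 ^ 65 + (16 * (r % 2) + 64 * (d % 2)))))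
      (rowc x base l (r / 2) (d / 2)) false = true := h
    obtain ⟨h2, h3⟩ := cond_false_right h1
    cases i with
    | zero =>
      have h5 := Nat.eq_of_beq_eq_true h2
      have e : nth (y :: l) 0 = y := rfl
      rw [e, pow_zero, Nat.div_one, Nat.div_one]
      exact h5
    | succ i =>
      have h4 := ih _ _ h3 i (by simpa using hi)
      have e : nth (y :: l) (i + 1) = nth l i := rfl
      have e2 : ∀ z : ℕ, z / 2 / 2 ^ i = z / 2 ^ (i + 1) := by
        intro z
        rw [Nat.div_div_eq_div_mul, pow_succ, mul_comm]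
      rw [e, h4, e2, e2]

theorem ys_len : ys.length = 326 := by decide +kernel

theorem gram_nat (u v : ℕ) (hu : u < 326) (hv : v < 326) :
    (∑ k ∈ range 65, (nth xs u / 16384 ^ k % 16384) * (nth xs v / 16384 ^ k % 16384)) + 1044 =
      4 * dsum 65 (nth xs u) + (4 * dsum 65 (nth xs v) +
        (16 * (if (nth nbs u).testBit v then 1 else 0) + 64 * (if u = v then 1 else 0))) := by
  have h := rowc_spec _ _ _ _ _ (row_all u hu) v (by rw [ys_len]; exact hv)
  obtain ⟨hd, hlt, -, -, -⟩ := vchk_spec u hu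
  obtain ⟨hd', -, hy, -, -⟩ := vchk_spec v hv
  have hb : bwd 65 (fun k => nth xs v / 16384 ^ k % 16384) < 16384 ^ 65 := by
    have h1 := bwd_le 64 (fun k => if k < 65 then nth xs v / 16384 ^ k % 16384 else 0) (by
      intro k
      split_ifs with h
      · exact hd' k h
      · omega)
    have h2 : bwd 65 (fun k => nth xs v / 16384 ^ k % 16384) =
        bwd (64 + 1) (fun k => if k < 65 then nth xs v / 16384 ^ k % 16384 else 0) := by
      unfold bwd
      apply Finset.sum_congr rfl
      intro k hk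
      rw [Finset.mem_range] at hk
      simp [hk]
    rw [h2]
    refine lt_of_le_of_lt h1 ?_
    norm_num
  have hdiv : nth ys v / 16384 ^ 65 = 4 * dsum 65 (nth xs v) := by
    rw [hy, Nat.add_mul_div_left _ _ (by positivity), Nat.div_eq_of_lt hb, zero_add]
  have hmul : (nth xs u * nth ys v) / 16384 ^ 64 % 16384 =
      ∑ k ∈ range 65, (nth xs u / 16384 ^ k % 16384) * (nth xs v / 16384 ^ k % 16384) := by
    have h3 := digit_of_mul (fun k => if k < 65 then nth xs u / 16384 ^ k % 16384 else 0)
      (fun k => if k < 65 then nth xs v / 16384 ^ k % 16384 else 0)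
      (by intro k
          by_cases h : k < 65
          · simpa [h] using hd k h
          · simp [h])
      (by intro k
          by_cases h : k < 65
          · simpa [h] using hd' k h
          · simp [h])
      (4 * dsum 65 (nth xs v))
    have e1 : fwd 65 (fun k => if k < 65 then nth xs u / 16384 ^ k % 16384 else 0) = nth xs u := by
      have e2 : fwd 65 (fun k => if k < 65 then nth xs u / 16384 ^ k % 16384 else 0) =
          fwd 65 (fun k => nth xs u / 16384 ^ k % 16384) := by
        unfold fwd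
        apply Finset.sum_congr rfl
        intro k hk
        rw [Finset.mem_range] at hk
        simp [hk]
      rw [e2, fwd_digits, Nat.mod_eq_of_lt hlt]
    have e3 : bwd 65 (fun k => if k < 65 then nth xs v / 16384 ^ k % 16384 else 0) =
        bwd 65 (fun k => nth xs v / 16384 ^ k % 16384) := by
      unfold bwd
      apply Finset.sum_congr rfl
      intro k hk
      rw [Finset.mem_range] at hk
      simp [hk]
    rw [e1, e3, ← hy] at h3
    rw [h3]
    apply Finset.sum_congr rfl
    intro k hk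
    rw [Finset.mem_range] at hk
    simp [hk]
  rw [hmul, hdiv] at h
  have hr : nth nbs u / 2 ^ v % 2 = (if (nth nbs u).testBit v then 1 else 0) := by
    rw [Nat.testBit_eq_decide_div_mod_eq]
    have := Nat.mod_lt (nth nbs u / 2 ^ v) (show 0 < 2 by norm_num)
    by_cases hh : nth nbs u / 2 ^ v % 2 = 1
    · simp [hh]
    · have : nth nbs u / 2 ^ v % 2 = 0 := by omega
      simp [this]
  have hd2 : Nat.pow 2 u / 2 ^ v % 2 = (if u = v then 1 else 0) := by
    have h1 : (2 ^ u : ℕ).testBit v = decide (u = v) := Nat.testBit_two_pow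
    rw [Nat.testBit_eq_decide_div_mod_eq] at h1
    have := Nat.mod_lt (2 ^ u / 2 ^ v) (show 0 < 2 by norm_num)
    have e : Nat.pow 2 u = 2 ^ u := rfl
    rw [e]
    by_cases hh : u = v
    · rw [if_pos hh]
      simpa [hh] using h1
    · rw [if_neg hh]
      have : ¬ (2 ^ u / 2 ^ v % 2 = 1) := by
        intro h2
        rw [h2] at h1
        simp [hh] at h1
      omega
  rw [hr, hd2] at h
  exact h

noncomputable def vec (u : Fin 326) (k : Fin 63) : ℤ :=
  ((nth xs u / 16384 ^ (k : ℕ) % 16384 : ℕ) : ℤ) - 4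

noncomputable def adj (u v : Fin 326) : Bool := (nth nbs u).testBit v

theorem gram_int (u v : Fin 326) :
    (∑ k, vec u k * vec v k) + (if 320 ≤ (u : ℕ) ∧ 320 ≤ (v : ℕ) then 8 else 0) =
      16 * (if adj u v then 1 else 0) + 64 * (if u = v then 1 else 0) - 4 := by
  have h := gram_nat u v u.2 v.2
  rw [dsum_eq, dsum_eq] at h
  obtain ⟨-, -, -, hu1, hu2⟩ := vchk_spec u u.2
  obtain ⟨-, -, -, hv1, hv2⟩ := vchk_spec v v.2
  have e1 : ∑ k : Fin 63, vec u k * vec v k =
      ∑ k ∈ range 63, (((nth xs u / 16384 ^ k % 16384 : ℕ) : ℤ) - 4) *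
        (((nth xs v / 16384 ^ k % 16384 : ℕ) : ℤ) - 4) := by
    rw [← Fin.sum_univ_eq_sum_range
      (fun k => (((nth xs u / 16384 ^ k % 16384 : ℕ) : ℤ) - 4) *
        (((nth xs v / 16384 ^ k % 16384 : ℕ) : ℤ) - 4)) 63]
    rfl
  have e2 : ∑ k ∈ range 63, (((nth xs u / 16384 ^ k % 16384 : ℕ) : ℤ) - 4) *
        (((nth xs v / 16384 ^ k % 16384 : ℕ) : ℤ) - 4) =
      ∑ k ∈ range 63, ((nth xs u / 16384 ^ k % 16384 : ℕ) : ℤ) *
        ((nth xs v / 16384 ^ k % 16384 : ℕ) : ℤ)
      - 4 * ∑ k ∈ range 63, ((nth xs u / 16384 ^ k % 16384 : ℕ) : ℤ)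
      - 4 * ∑ k ∈ range 63, ((nth xs v / 16384 ^ k % 16384 : ℕ) : ℤ) + 16 * 63 := by
    have : ∀ k ∈ range 63, (((nth xs u / 16384 ^ k % 16384 : ℕ) : ℤ) - 4) *
        (((nth xs v / 16384 ^ k % 16384 : ℕ) : ℤ) - 4) =
        ((nth xs u / 16384 ^ k % 16384 : ℕ) : ℤ) * ((nth xs v / 16384 ^ k % 16384 : ℕ) : ℤ)
        - 4 * ((nth xs u / 16384 ^ k % 16384 : ℕ) : ℤ)
        - 4 * ((nth xs v / 16384 ^ k % 16384 : ℕ) : ℤ) + 16 := by
      intro k _
      ring
    rw [Finset.sum_congr rfl this, Finset.sum_add_distrib, Finset.sum_sub_distrib,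
      Finset.sum_sub_distrib, ← Finset.mul_sum, ← Finset.mul_sum]
    simp
  have h' : ((∑ k ∈ range 65, (nth xs u / 16384 ^ k % 16384) *
      (nth xs v / 16384 ^ k % 16384) : ℕ) : ℤ) + 1044 =
      4 * ((∑ k ∈ range 65, nth xs u / 16384 ^ k % 16384 : ℕ) : ℤ) +
      (4 * ((∑ k ∈ range 65, nth xs v / 16384 ^ k % 16384 : ℕ) : ℤ) +
        (16 * (if (nth nbs u).testBit v then 1 else 0) +
          64 * (if (u : ℕ) = (v : ℕ) then 1 else 0))) := by
    exact_mod_cast h
  rw [Finset.sum_range_succ, Finset.sum_range_succ, Finset.sum_range_succ _ 64,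
    Finset.sum_range_succ _ 63, Finset.sum_range_succ _ 64,
    Finset.sum_range_succ _ 63, hu1, hu2, hv1, hv2] at h'
  have huv : ((u : ℕ) = (v : ℕ)) ↔ u = v := Fin.ext_iff.symm
  rw [e1, e2]
  unfold adj
  simp only [huv] at h'
  push_cast at h' ⊢
  by_cases a1 : 320 ≤ (u : ℕ) <;> by_cases a2 : 320 ≤ (v : ℕ) <;>
    simp only [a1, a2, if_true, if_false, and_true, and_false, and_self, true_and, false_and]
      at h' ⊢ <;> push_cast at h' ⊢ <;> linarith

end Vale.Agent.P052
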