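import Vale.Agent.P052.CliqueC0
import Vale.Agent.P052.CliqueC1
import Vale.Agent.P052.CliqueC2
import Vale.Agent.P052.CliqueC3
import Vale.Agent.P052.GramSpec

namespace Vale.Agent.P052

theorem rchk_all (i : ℕ) (hi : i < 326) : rchk i = true := by
  obtain ⟨b, k, hk, rfl⟩ : ∃ b k, k < 40 ∧ i = 40 * b + k :=
    ⟨i / 40, i % 40, Nat.mod_lt _ (by norm_num), (Nat.div_add_mod i 40).symm⟩
  have hb : b < 9 := by omega
  interval_cases b
  · exact allFrom_spec rchk 0 40 hb0 k (by omega)
  · exact allFrom_spec rchk 40 40 hb1 k (by omega)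
  · exact allFrom_spec rchk 80 40 hb2 k (by omega)
  · exact allFrom_spec rchk 120 40 hb3 k (by omega)
  · exact allFrom_spec rchk 160 40 hb4 k (by omega)
  · exact allFrom_spec rchk 200 40 hb5 k (by omega)
  · exact allFrom_spec rchk 240 40 hb6 k (by omega)
  · exact allFrom_spec rchk 280 40 hb7 k (by omega)
  · exact allFrom_spec rchk 320 6 hb8 k (by omega)

theorem allFrom_at (p : ℕ → Bool) (a n i : ℕ) (h : allFrom p a n = true) (h1 : a ≤ i)
    (h2 : i < a + n) : p i = true := by
  have := allFrom_spec p a n h (i - a) (by omega)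
  rwa [Nat.add_sub_cancel' h1] at this

theorem cchk_all (i : ℕ) (hi : i < 326) : cchk i = true := by
  rcases Nat.lt_or_ge i 1 with h0 | h0
  · exact allFrom_at cchk 0 1 i cb0 (by omega) (by omega)
  rcases Nat.lt_or_ge i 2 with h1 | h1
  · exact allFrom_at cchk 1 1 i cb1 (by omega) (by omega)
  rcases Nat.lt_or_ge i 3 with h2 | h2
  · exact allFrom_at cchk 2 1 i cb2 (by omega) (by omega)
  rcases Nat.lt_or_ge i 4 with h3 | h3
  · exact allFrom_at cchk 3 1 i cb3 (by omega) (by omega)
  rcases Nat.lt_or_ge i 5 with h4 | h4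
  · exact allFrom_at cchk 4 1 i cb4 (by omega) (by omega)
  rcases Nat.lt_or_ge i 6 with h5 | h5
  · exact allFrom_at cchk 5 1 i cb5 (by omega) (by omega)
  rcases Nat.lt_or_ge i 7 with h6 | h6
  · exact allFrom_at cchk 6 1 i cb6 (by omega) (by omega)
  rcases Nat.lt_or_ge i 8 with h7 | h7
  · exact allFrom_at cchk 7 1 i cb7 (by omega) (by omega)
  rcases Nat.lt_or_ge i 9 with h8 | h8
  · exact allFrom_at cchk 8 1 i cb8 (by omega) (by omega)
  rcases Nat.lt_or_ge i 10 with h9 | h9
  · exact allFrom_at cchk 9 1 i cb9 (by omega) (by omega)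
  rcases Nat.lt_or_ge i 11 with h10 | h10
  · exact allFrom_at cchk 10 1 i cb10 (by omega) (by omega)
  rcases Nat.lt_or_ge i 12 with h11 | h11
  · exact allFrom_at cchk 11 1 i cb11 (by omega) (by omega)
  rcases Nat.lt_or_ge i 13 with h12 | h12
  · exact allFrom_at cchk 12 1 i cb12 (by omega) (by omega)
  rcases Nat.lt_or_ge i 14 with h13 | h13
  · exact allFrom_at cchk 13 1 i cb13 (by omega) (by omega)
  rcases Nat.lt_or_ge i 15 with h14 | h14
  · exact allFrom_at cchk 14 1 i cb14 (by omega) (by omega)
  rcases Nat.lt_or_ge i 16 with h15 | h15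
  · exact allFrom_at cchk 15 1 i cb15 (by omega) (by omega)
  rcases Nat.lt_or_ge i 17 with h16 | h16
  · exact allFrom_at cchk 16 1 i cb16 (by omega) (by omega)
  rcases Nat.lt_or_ge i 18 with h17 | h17
  · exact allFrom_at cchk 17 1 i cb17 (by omega) (by omega)
  rcases Nat.lt_or_ge i 19 with h18 | h18
  · exact allFrom_at cchk 18 1 i cb18 (by omega) (by omega)
  rcases Nat.lt_or_ge i 20 with h19 | h19
  · exact allFrom_at cchk 19 1 i cb19 (by omega) (by omega)
  rcases Nat.lt_or_ge i 21 with h20 | h20
  · exact allFrom_at cchk 20 1 i cb20 (by omega) (by omega)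
  rcases Nat.lt_or_ge i 22 with h21 | h21
  · exact allFrom_at cchk 21 1 i cb21 (by omega) (by omega)
  rcases Nat.lt_or_ge i 23 with h22 | h22
  · exact allFrom_at cchk 22 1 i cb22 (by omega) (by omega)
  rcases Nat.lt_or_ge i 24 with h23 | h23
  · exact allFrom_at cchk 23 1 i cb23 (by omega) (by omega)
  rcases Nat.lt_or_ge i 25 with h24 | h24
  · exact allFrom_at cchk 24 1 i cb24 (by omega) (by omega)
  rcases Nat.lt_or_ge i 26 with h25 | h25
  · exact allFrom_at cchk 25 1 i cb25 (by omega) (by omega)
  rcases Nat.lt_or_ge i 27 with h26 | h26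
  · exact allFrom_at cchk 26 1 i cb26 (by omega) (by omega)
  rcases Nat.lt_or_ge i 28 with h27 | h27
  · exact allFrom_at cchk 27 1 i cb27 (by omega) (by omega)
  rcases Nat.lt_or_ge i 29 with h28 | h28
  · exact allFrom_at cchk 28 1 i cb28 (by omega) (by omega)
  rcases Nat.lt_or_ge i 30 with h29 | h29
  · exact allFrom_at cchk 29 1 i cb29 (by omega) (by omega)
  rcases Nat.lt_or_ge i 31 with h30 | h30
  · exact allFrom_at cchk 30 1 i cb30 (by omega) (by omega)
  rcases Nat.lt_or_ge i 32 with h31 | h31
  · exact allFrom_at cchk 31 1 i cb31 (by omega) (by omega)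
  rcases Nat.lt_or_ge i 33 with h32 | h32
  · exact allFrom_at cchk 32 1 i cb32 (by omega) (by omega)
  rcases Nat.lt_or_ge i 34 with h33 | h33
  · exact allFrom_at cchk 33 1 i cb33 (by omega) (by omega)
  rcases Nat.lt_or_ge i 35 with h34 | h34
  · exact allFrom_at cchk 34 1 i cb34 (by omega) (by omega)
  rcases Nat.lt_or_ge i 36 with h35 | h35
  · exact allFrom_at cchk 35 1 i cb35 (by omega) (by omega)
  rcases Nat.lt_or_ge i 37 with h36 | h36
  · exact allFrom_at cchk 36 1 i cb36 (by omega) (by omega)
  rcases Nat.lt_or_ge i 38 with h37 | h37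
  · exact allFrom_at cchk 37 1 i cb37 (by omega) (by omega)
  rcases Nat.lt_or_ge i 39 with h38 | h38
  · exact allFrom_at cchk 38 1 i cb38 (by omega) (by omega)
  rcases Nat.lt_or_ge i 40 with h39 | h39
  · exact allFrom_at cchk 39 1 i cb39 (by omega) (by omega)
  rcases Nat.lt_or_ge i 41 with h40 | h40
  · exact allFrom_at cchk 40 1 i cb40 (by omega) (by omega)
  rcases Nat.lt_or_ge i 42 with h41 | h41
  · exact allFrom_at cchk 41 1 i cb41 (by omega) (by omega)
  rcases Nat.lt_or_ge i 43 with h42 | h42
  · exact allFrom_at cchk 42 1 i cb42 (by omega) (by omega)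
  rcases Nat.lt_or_ge i 44 with h43 | h43
  · exact allFrom_at cchk 43 1 i cb43 (by omega) (by omega)
  rcases Nat.lt_or_ge i 45 with h44 | h44
  · exact allFrom_at cchk 44 1 i cb44 (by omega) (by omega)
  rcases Nat.lt_or_ge i 46 with h45 | h45
  · exact allFrom_at cchk 45 1 i cb45 (by omega) (by omega)
  rcases Nat.lt_or_ge i 47 with h46 | h46
  · exact allFrom_at cchk 46 1 i cb46 (by omega) (by omega)
  rcases Nat.lt_or_ge i 48 with h47 | h47
  · exact allFrom_at cchk 47 1 i cb47 (by omega) (by omega)
  rcases Nat.lt_or_ge i 49 with h48 | h48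
  · exact allFrom_at cchk 48 1 i cb48 (by omega) (by omega)
  rcases Nat.lt_or_ge i 50 with h49 | h49
  · exact allFrom_at cchk 49 1 i cb49 (by omega) (by omega)
  rcases Nat.lt_or_ge i 51 with h50 | h50
  · exact allFrom_at cchk 50 1 i cb50 (by omega) (by omega)
  rcases Nat.lt_or_ge i 52 with h51 | h51
  · exact allFrom_at cchk 51 1 i cb51 (by omega) (by omega)
  rcases Nat.lt_or_ge i 53 with h52 | h52
  · exact allFrom_at cchk 52 1 i cb52 (by omega) (by omega)
  rcases Nat.lt_or_ge i 54 with h53 | h53
  · exact allFrom_at cchk 53 1 i cb53 (by omega) (by omega)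
  rcases Nat.lt_or_ge i 55 with h54 | h54
  · exact allFrom_at cchk 54 1 i cb54 (by omega) (by omega)
  rcases Nat.lt_or_ge i 56 with h55 | h55
  · exact allFrom_at cchk 55 1 i cb55 (by omega) (by omega)
  rcases Nat.lt_or_ge i 57 with h56 | h56
  · exact allFrom_at cchk 56 1 i cb56 (by omega) (by omega)
  rcases Nat.lt_or_ge i 58 with h57 | h57
  · exact allFrom_at cchk 57 1 i cb57 (by omega) (by omega)
  rcases Nat.lt_or_ge i 59 with h58 | h58
  · exact allFrom_at cchk 58 1 i cb58 (by omega) (by omega)
  rcases Nat.lt_or_ge i 60 with h59 | h59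
  · exact allFrom_at cchk 59 1 i cb59 (by omega) (by omega)
  rcases Nat.lt_or_ge i 61 with h60 | h60
  · exact allFrom_at cchk 60 1 i cb60 (by omega) (by omega)
  rcases Nat.lt_or_ge i 62 with h61 | h61
  · exact allFrom_at cchk 61 1 i cb61 (by omega) (by omega)
  rcases Nat.lt_or_ge i 63 with h62 | h62
  · exact allFrom_at cchk 62 1 i cb62 (by omega) (by omega)
  rcases Nat.lt_or_ge i 64 with h63 | h63
  · exact allFrom_at cchk 63 1 i cb63 (by omega) (by omega)
  rcases Nat.lt_or_ge i 66 with h64 | h64
  · exact allFrom_at cchk 64 2 i cb64 (by omega) (by omega)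
  rcases Nat.lt_or_ge i 69 with h65 | h65
  · exact allFrom_at cchk 66 3 i cb65 (by omega) (by omega)
  rcases Nat.lt_or_ge i 72 with h66 | h66
  · exact allFrom_at cchk 69 3 i cb66 (by omega) (by omega)
  rcases Nat.lt_or_ge i 75 with h67 | h67
  · exact allFrom_at cchk 72 3 i cb67 (by omega) (by omega)
  rcases Nat.lt_or_ge i 78 with h68 | h68
  · exact allFrom_at cchk 75 3 i cb68 (by omega) (by omega)
  rcases Nat.lt_or_ge i 81 with h69 | h69
  · exact allFrom_at cchk 78 3 i cb69 (by omega) (by omega)
  rcases Nat.lt_or_ge i 84 with h70 | h70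
  · exact allFrom_at cchk 81 3 i cb70 (by omega) (by omega)
  rcases Nat.lt_or_ge i 87 with h71 | h71
  · exact allFrom_at cchk 84 3 i cb71 (by omega) (by omega)
  rcases Nat.lt_or_ge i 90 with h72 | h72
  · exact allFrom_at cchk 87 3 i cb72 (by omega) (by omega)
  rcases Nat.lt_or_ge i 93 with h73 | h73
  · exact allFrom_at cchk 90 3 i cb73 (by omega) (by omega)
  rcases Nat.lt_or_ge i 96 with h74 | h74
  · exact allFrom_at cchk 93 3 i cb74 (by omega) (by omega)
  rcases Nat.lt_or_ge i 99 with h75 | h75
  · exact allFrom_at cchk 96 3 i cb75 (by omega) (by omega)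
  rcases Nat.lt_or_ge i 103 with h76 | h76
  · exact allFrom_at cchk 99 4 i cb76 (by omega) (by omega)
  rcases Nat.lt_or_ge i 107 with h77 | h77
  · exact allFrom_at cchk 103 4 i cb77 (by omega) (by omega)
  rcases Nat.lt_or_ge i 111 with h78 | h78
  · exact allFrom_at cchk 107 4 i cb78 (by omega) (by omega)
  rcases Nat.lt_or_ge i 115 with h79 | h79
  · exact allFrom_at cchk 111 4 i cb79 (by omega) (by omega)
  rcases Nat.lt_or_ge i 119 with h80 | h80
  · exact allFrom_at cchk 115 4 i cb80 (by omega) (by omega)
  rcases Nat.lt_or_ge i 123 with h81 | h81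
  · exact allFrom_at cchk 119 4 i cb81 (by omega) (by omega)
  rcases Nat.lt_or_ge i 127 with h82 | h82
  · exact allFrom_at cchk 123 4 i cb82 (by omega) (by omega)
  rcases Nat.lt_or_ge i 134 with h83 | h83
  · exact allFrom_at cchk 127 7 i cb83 (by omega) (by omega)
  rcases Nat.lt_or_ge i 143 with h84 | h84
  · exact allFrom_at cchk 134 9 i cb84 (by omega) (by omega)
  rcases Nat.lt_or_ge i 153 with h85 | h85
  · exact allFrom_at cchk 143 10 i cb85 (by omega) (by omega)
  rcases Nat.lt_or_ge i 166 with h86 | h86
  · exact allFrom_at cchk 153 13 i cb86 (by omega) (by omega)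
  rcases Nat.lt_or_ge i 182 with h87 | h87
  · exact allFrom_at cchk 166 16 i cb87 (by omega) (by omega)
  rcases Nat.lt_or_ge i 202 with h88 | h88
  · exact allFrom_at cchk 182 20 i cb88 (by omega) (by omega)
  rcases Nat.lt_or_ge i 222 with h89 | h89
  · exact allFrom_at cchk 202 20 i cb89 (by omega) (by omega)
  rcases Nat.lt_or_ge i 242 with h90 | h90
  · exact allFrom_at cchk 222 20 i cb90 (by omega) (by omega)
  rcases Nat.lt_or_ge i 262 with h91 | h91
  · exact allFrom_at cchk 242 20 i cb91 (by omega) (by omega)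
  rcases Nat.lt_or_ge i 282 with h92 | h92
  · exact allFrom_at cchk 262 20 i cb92 (by omega) (by omega)
  rcases Nat.lt_or_ge i 302 with h93 | h93
  · exact allFrom_at cchk 282 20 i cb93 (by omega) (by omega)
  rcases Nat.lt_or_ge i 322 with h94 | h94
  · exact allFrom_at cchk 302 20 i cb94 (by omega) (by omega)
  exact allFrom_at cchk 322 4 i cb95 (by omega) (by omega)

theorem low_spec (x : ℕ) : 0 < x → ∃ t, x - low x = 2 ^ t ∧ x.testBit t = true ∧
    ∀ i, (low x).testBit i = (x.testBit i && decide (i ≠ t)) := by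
  induction x using Nat.strong_induction_on with
  | _ x ih =>
    intro hx
    have hl : low x = x &&& (x - 1) := rfl
    rcases Nat.mod_two_eq_zero_or_one x with h | h
    · obtain ⟨t, h1, h2, h3⟩ := ih (x / 2) (by omega) (by omega)
      have hl2 : low (x / 2) = (x / 2) &&& (x / 2 - 1) := rfl
      have e : low x = 2 * low (x / 2) := by
        apply Nat.eq_of_testBit_eq
        intro i
        cases i with
        | zero =>
          rw [hl, Nat.testBit_and, Nat.testBit_zero, Nat.testBit_zero, Nat.testBit_zero]
          have : ¬ (x % 2 = 1) := by omega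
          simp [this]
        | succ i =>
          rw [hl, Nat.testBit_and, Nat.testBit_succ, Nat.testBit_succ, Nat.testBit_succ]
          have e1 : (x - 1) / 2 = x / 2 - 1 := by omega
          have e2 : 2 * low (x / 2) / 2 = low (x / 2) := by omega
          rw [e1, e2, hl2, Nat.testBit_and]
      refine ⟨t + 1, ?_, ?_, ?_⟩
      · rw [e, pow_succ, ← h1]
        omega
      · rw [Nat.testBit_succ]; exact h2
      · intro i
        cases i with
        | zero =>
          rw [e, Nat.testBit_zero, Nat.testBit_zero]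
          have : ¬ (x % 2 = 1) := by omega
          simp [this]
        | succ i =>
          rw [Nat.testBit_succ, Nat.testBit_succ]
          have e2 : low x / 2 = low (x / 2) := by omega
          rw [e2, h3]
          congr 1
          simp
    · have e : low x = x - 1 := by
        apply Nat.eq_of_testBit_eq
        intro i
        cases i with
        | zero =>
          rw [hl, Nat.testBit_and, Nat.testBit_zero, Nat.testBit_zero]
          have : ¬ ((x - 1) % 2 = 1) := by omega
          simp [this]
        | succ i =>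
          rw [hl, Nat.testBit_and, Nat.testBit_succ, Nat.testBit_succ]
          have e1 : (x - 1) / 2 = x / 2 := by omega
          rw [e1, Bool.and_self]
      refine ⟨0, ?_, ?_, ?_⟩
      · rw [e, pow_zero]; omega
      · rw [Nat.testBit_zero]; simp [h]
      · intro i
        cases i with
        | zero =>
          rw [e, Nat.testBit_zero]
          have : ¬ ((x - 1) % 2 = 1) := by omega
          simp [this]
        | succ i =>
          rw [e, Nat.testBit_succ, Nat.testBit_succ]
          have e1 : (x - 1) / 2 = x / 2 := by omega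
          rw [e1]
          simp

def Cl (C : Finset ℕ) : Prop :=
  (∀ v ∈ C, v < 326) ∧ ∀ u ∈ C, ∀ v ∈ C, u ≠ v → (nth nbs u).testBit v = true

theorem Cl.mono {C D : Finset ℕ} (h : Cl C) (hD : D ⊆ C) : Cl D :=
  ⟨fun v hv => h.1 v (hD hv), fun u hu v hv => h.2 u (hD hu) v (hD hv)⟩

theorem rowOf_eq (t : ℕ) (ht : t < 326) : rowOf (2 ^ t % 347) = nth nbs t :=
  Nat.eq_of_beq_eq_true (rchk_all t ht)

theorem loopK_spec (k : ℕ) (f : ℕ → Bool)
    (hf : ∀ cand, f cand = true → ∀ C : Finset ℕ, Cl C →
      (∀ v ∈ C, cand.testBit v = true) → C.card ≤ k) (fuel : ℕ) :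
    ∀ cand, loopK f fuel cand = true → ∀ C : Finset ℕ, Cl C →
      (∀ v ∈ C, cand.testBit v = true) → C.card ≤ k + 1 := by
  induction fuel with
  | zero => intro cand h; exact absurd h (by simp [loopK])
  | succ fuel ih =>
    intro cand h C hC hb
    have h1 : cond (Nat.beq cand 0) true
      (cond (Nat.beq (low cand) 0) true
        (cond (f (low cand &&& (rowOf ((cand - low cand) % 347))))
          (loopK f fuel (low cand)) false)) = true := h
    rcases Nat.eq_zero_or_pos cand with h0 | hpos
    · have : C = ∅ := by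
        apply Finset.eq_empty_of_forall_notMem
        intro v hv
        have := hb v hv
        rw [h0, Nat.zero_testBit] at this
        exact absurd this (by simp)
      rw [this]; simp
    · have hbeq : Nat.beq cand 0 = false := by
        cases hh : Nat.beq cand 0 with
        | false => rfl
        | true => exact absurd (Nat.eq_of_beq_eq_true hh) (by omega)
      rw [hbeq, cond_false] at h1
      obtain ⟨t, ht1, ht2, ht3⟩ := low_spec cand hpos
      cases hl : Nat.beq (low cand) 0 with
      | true =>
        have h2 := Nat.eq_of_beq_eq_true hl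
        have hsub : C ⊆ {t} := by
          intro v hv
          rw [Finset.mem_singleton]
          by_contra hne
          have h3 := ht3 v
          rw [h2, Nat.zero_testBit, hb v hv] at h3
          simp [hne] at h3
        have := Finset.card_le_card hsub
        rw [Finset.card_singleton] at this
        omega
      | false =>
        rw [hl, cond_false] at h1
        obtain ⟨h4, h5⟩ := cond_false_right h1
        by_cases htC : t ∈ C
        · have ht326 := hC.1 t htC
          have hcard := hf _ h4 (C.erase t) (hC.mono (Finset.erase_subset _ _)) (by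
            intro v hv
            rw [Finset.mem_erase] at hv
            rw [Nat.testBit_and, ht3, hb v hv.2, ht1, rowOf_eq t ht326,
              hC.2 t htC v hv.2 (Ne.symm hv.1)]
            simp [hv.1])
          rw [Finset.card_erase_of_mem htC] at hcard
          omega
        · exact ih _ h5 C hC (by
            intro v hv
            rw [ht3, hb v hv]
            have : v ≠ t := fun e => htC (e ▸ hv)
            simp [this])

theorem noK_spec (k : ℕ) : ∀ cand, noK k cand = true → ∀ C : Finset ℕ, Cl C →
    (∀ v ∈ C, cand.testBit v = true) → C.card ≤ k := by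
  induction k with
  | zero =>
    intro cand h C _ hb
    have h0 : cand = 0 := Nat.eq_of_beq_eq_true h
    have : C = ∅ := by
      apply Finset.eq_empty_of_forall_notMem
      intro v hv
      have := hb v hv
      rw [h0, Nat.zero_testBit] at this
      exact absurd this (by simp)
    rw [this]; simp
  | succ k ih => exact loopK_spec k (noK k) ih 400

theorem clique_nat (C : Finset ℕ) (hC : Cl C) : C.card ≤ 5 := by
  rcases C.eq_empty_or_nonempty with h | h
  · rw [h]; simp
  · have hm := C.min'_mem h
    have hv := hC.1 _ hm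
    have h1 := noK_spec 4 _ (cchk_all _ hv) (C.erase (C.min' h))
      (hC.mono (Finset.erase_subset _ _)) (by
        intro w hw
        rw [Finset.mem_erase] at hw
        have hlt : C.min' h < w := lt_of_le_of_ne (C.min'_le w hw.2) (Ne.symm hw.1)
        have hb := hC.2 _ hm w hw.2 (Ne.symm hw.1)
        have e : Nat.mul (Nat.div (nth nbs (C.min' h)) (Nat.pow 2 (Nat.succ (C.min' h))))
            (Nat.pow 2 (Nat.succ (C.min' h))) =
            nth nbs (C.min' h) / 2 ^ (C.min' h + 1) * 2 ^ (C.min' h + 1) := rfl
        rw [e, Nat.testBit_mul_two_pow, Nat.testBit_div_two_pow]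
        have h2 : C.min' h + 1 ≤ w := hlt
        rw [decide_eq_true h2, Bool.true_and, Nat.sub_add_cancel h2]
        exact hb)
    rw [Finset.card_erase_of_mem hm] at h1
    omega

theorem clique_le (C : Finset (Fin 326))
    (h : ∀ u ∈ C, ∀ v ∈ C, u ≠ v → adj u v = true) : C.card ≤ 5 := by
  have h1 := clique_nat (C.map Fin.valEmbedding) (by
    constructor
    · intro v hv
      rw [Finset.mem_map] at hv
      obtain ⟨a, _, rfl⟩ := hv
      exact a.2
    · intro u hu v hv huv
      rw [Finset.mem_map] at hu hv
      obtain ⟨a, ha, rfl⟩ := hu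
      obtain ⟨b, hb, rfl⟩ := hv
      exact h a ha b hb (fun e => huv (by rw [e])))
  rwa [Finset.card_map] at h1

end Vale.Agent.P052
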