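import Mathlib.Analysis.InnerProductSpace.PiL2
import Mathlib.Analysis.SpecialFunctions.Sqrt

namespace Vale.Agent.P052

theorem core {E : Type*} [MetricSpace E] {ι : Type*} [Fintype ι] (φ : ι → E) (D : ℝ)
    (hD : 0 < D) (hle : ∀ x y, dist (φ x) (φ y) ≤ D) (w : ι → ℕ) (L k : ℕ)
    (hw : ∀ C : Finset ι, (∀ x ∈ C, ∀ y ∈ C, x ≠ y → dist (φ x) (φ y) < D) →
      ∑ x ∈ C, w x ≤ L)
    (hk : 0 < k) (htot : L * k < ∑ x, w x) :
    ∃ Y : Set E, Y.Finite ∧ 0 < Metric.diam Y ∧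
      ¬ ∃ P : Fin k → Set E, (⋃ i, P i) = Y ∧ ∀ i, Metric.diam (P i) < Metric.diam Y := by
  classical
  have hfin : (Set.range φ).Finite := Set.finite_range φ
  have hex : ∃ x y, dist (φ x) (φ y) = D := by
    by_contra hcon
    push Not at hcon
    have h1 := hw Finset.univ (fun x _ y _ _ => lt_of_le_of_ne (hle x y) (hcon x y))
    have h2 : L ≤ L * k := Nat.le_mul_of_pos_right L hk
    omega
  obtain ⟨x0, y0, hxy⟩ := hex
  have hdiam : Metric.diam (Set.range φ) = D := by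
    apply le_antisymm
    · apply Metric.diam_le_of_forall_dist_le hD.le
      rintro _ ⟨x, rfl⟩ _ ⟨y, rfl⟩
      exact hle x y
    · rw [← hxy]
      exact Metric.dist_le_diam_of_mem hfin.isBounded ⟨x0, rfl⟩ ⟨y0, rfl⟩
  refine ⟨Set.range φ, hfin, by rw [hdiam]; exact hD, ?_⟩
  rintro ⟨P, hPU, hPd⟩
  rw [hdiam] at hPd
  have hsub : ∀ i, P i ⊆ Set.range φ := fun i => by
    rw [← hPU]; exact Set.subset_iUnion P i
  have hbd : ∀ i, Bornology.IsBounded (P i) := fun i => hfin.isBounded.subset (hsub i)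
  have hC : ∀ i, ∑ x ∈ Finset.univ.filter (fun x => φ x ∈ P i), w x ≤ L := by
    intro i
    apply hw
    intro x hx y hy _
    rw [Finset.mem_filter] at hx hy
    exact lt_of_le_of_lt (Metric.dist_le_diam_of_mem (hbd i) hx.2 hy.2) (hPd i)
  have hcov : ∀ x, ∃ i, φ x ∈ P i := by
    intro x
    have : φ x ∈ ⋃ i, P i := by rw [hPU]; exact ⟨x, rfl⟩
    simpa using this
  have hsum : ∑ x, w x ≤ ∑ i : Fin k, ∑ x ∈ Finset.univ.filter (fun x => φ x ∈ P i), w x := by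
    have h1 : ∀ i : Fin k, ∑ x ∈ Finset.univ.filter (fun x => φ x ∈ P i), w x =
        ∑ x, if φ x ∈ P i then w x else 0 := fun i => by rw [Finset.sum_filter]
    simp_rw [h1]
    rw [Finset.sum_comm]
    apply Finset.sum_le_sum
    intro x _
    obtain ⟨i, hi⟩ := hcov x
    calc w x = (if φ x ∈ P i then w x else 0) := by rw [if_pos hi]
      _ ≤ ∑ j : Fin k, if φ x ∈ P j then w x else 0 :=
        Finset.single_le_sum (f := fun j : Fin k => if φ x ∈ P j then w x else 0)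
          (fun _ _ => Nat.zero_le _) (Finset.mem_univ i)
  have hsum2 : ∑ i : Fin k, ∑ x ∈ Finset.univ.filter (fun x => φ x ∈ P i), w x ≤ L * k := by
    calc _ ≤ ∑ _i : Fin k, L := Finset.sum_le_sum (fun i _ => hC i)
      _ = L * k := by simp [mul_comm]
  omega

theorem core_euclid {κ : Type*} [Fintype κ] (d : ℕ) (hd : Fintype.card κ = d)
    {ι : Type*} [Fintype ι] (φ : ι → EuclideanSpace ℝ κ) (D : ℝ)
    (hD : 0 < D) (hle : ∀ x y, dist (φ x) (φ y) ≤ D) (w : ι → ℕ) (L k : ℕ)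
    (hw : ∀ C : Finset ι, (∀ x ∈ C, ∀ y ∈ C, x ≠ y → dist (φ x) (φ y) < D) →
      ∑ x ∈ C, w x ≤ L)
    (hk : 0 < k) (htot : L * k < ∑ x, w x) :
    ∃ Y : Set (EuclideanSpace ℝ (Fin d)), Y.Finite ∧ 0 < Metric.diam Y ∧
      ¬ ∃ P : Fin k → Set (EuclideanSpace ℝ (Fin d)),
        (⋃ i, P i) = Y ∧ ∀ i, Metric.diam (P i) < Metric.diam Y := by
  classical
  let e : EuclideanSpace ℝ κ ≃ₗᵢ[ℝ] EuclideanSpace ℝ (Fin d) :=
    LinearIsometryEquiv.piLpCongrLeft 2 ℝ ℝ (Fintype.equivFinOfCardEq hd)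
  have he : ∀ x y, dist (e (φ x)) (e (φ y)) = dist (φ x) (φ y) := fun x y => e.dist_map _ _
  exact core (fun x => e (φ x)) D hD (fun x y => by rw [he]; exact hle x y) w L k
    (fun C hC => hw C (fun x hx y hy hxy => by rw [← he]; exact hC x hx y hy hxy)) hk htot

end Vale.Agent.P052
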