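import Vale.Agent.P052.Core

namespace Vale.Agent.P052

theorem dist_sq_eq {κ : Type*} [Fintype κ] (x y : EuclideanSpace ℝ κ) :
    dist x y ^ 2 = ∑ k, x k * x k + ∑ k, y k * y k - 2 * ∑ k, x k * y k := by
  rw [EuclideanSpace.dist_eq, Real.sq_sqrt (Finset.sum_nonneg fun i _ => sq_nonneg _),
    Finset.mul_sum, ← Finset.sum_add_distrib, ← Finset.sum_sub_distrib]
  apply Finset.sum_congr rfl
  intro k _
  rw [Real.dist_eq, sq_abs]
  ring

theorem dist_le_of_sq {E : Type*} [MetricSpace E] {x y : E} {a : ℝ} (h : dist x y ^ 2 ≤ a) :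
    dist x y ≤ √a := Real.le_sqrt_of_sq_le h

theorem not_lt_of_sq {E : Type*} [MetricSpace E] {x y : E} {a : ℝ} (h : dist x y ^ 2 = a) :
    ¬ dist x y < √a := by
  rw [← h, Real.sqrt_sq dist_nonneg]
  exact lt_irrefl _

section data

variable (vec : Fin 326 → Fin 63 → ℤ) (adj : Fin 326 → Fin 326 → Bool)

theorem real_self
    (hself : ∀ u, ∑ k, vec u k * vec u k = if (u : ℕ) < 320 then 60 else 52) (u : Fin 326) :
    ∑ k, (vec u k : ℝ) * (vec u k : ℝ) = if (u : ℕ) < 320 then 60 else 52 := by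
  have h := hself u
  have h2 : ((∑ k, vec u k * vec u k : ℤ) : ℝ) = ((if (u : ℕ) < 320 then 60 else 52 : ℤ) : ℝ) := by
    rw [h]
  push_cast at h2
  exact h2

theorem real_off
    (hoff : ∀ u v, u ≠ v → (∑ k, vec u k * vec v k) +
      (if 320 ≤ (u : ℕ) ∧ 320 ≤ (v : ℕ) then 8 else 0) = if adj u v then 12 else -4)
    (u v : Fin 326) (huv : u ≠ v) :
    (∑ k, (vec u k : ℝ) * (vec v k : ℝ)) +
      (if 320 ≤ (u : ℕ) ∧ 320 ≤ (v : ℕ) then 8 else 0) = if adj u v then 12 else -4 := by
  have h := hoff u v huv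
  have h2 : (((∑ k, vec u k * vec v k) +
      (if 320 ≤ (u : ℕ) ∧ 320 ≤ (v : ℕ) then 8 else 0) : ℤ) : ℝ) =
      ((if adj u v then 12 else -4 : ℤ) : ℝ) := by
    rw [h]
  push_cast at h2
  exact h2

theorem case_zero
    (hself : ∀ u, ∑ k, vec u k * vec u k = if (u : ℕ) < 320 then 60 else 52)
    (hoff : ∀ u v, u ≠ v → (∑ k, vec u k * vec v k) +
      (if 320 ≤ (u : ℕ) ∧ 320 ≤ (v : ℕ) then 8 else 0) = if adj u v then 12 else -4)
    (hcl : ∀ C : Finset (Fin 326), (∀ u ∈ C, ∀ v ∈ C, u ≠ v → adj u v = true) → C.card ≤ 5) :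
    ∃ Y : Set (EuclideanSpace ℝ (Fin 63)), Y.Finite ∧ 0 < Metric.diam Y ∧
      ¬ ∃ P : Fin (63 + 1) → Set (EuclideanSpace ℝ (Fin 63)),
        (⋃ i, P i) = Y ∧ ∀ i, Metric.diam (P i) < Metric.diam Y := by
  classical
  have h222 : √(222 : ℝ) ^ 2 = 222 := Real.sq_sqrt (by norm_num)
  have h222' : (1 : ℝ) < √(222 : ℝ) := by
    rw [Real.lt_sqrt (by norm_num)]; norm_num
  obtain ⟨lam, hlam0, hlam⟩ : ∃ lam : ℝ, 0 < lam ∧ 13 * lam ^ 2 + 2 * lam = 17 := by
    refine ⟨(-1 + √222) / 13, by linarith, ?_⟩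
    nlinarith [h222]
  let c : Fin 321 → Fin 326 := Fin.castLE (by norm_num)
  have hc : ∀ u, ((c u : Fin 326) : ℕ) = (u : ℕ) := fun u => rfl
  have hcinj : Function.Injective c := Fin.castLE_injective _
  let s : Fin 321 → ℝ := fun u => if (u : ℕ) < 320 then 1 else lam
  let φ : Fin 321 → EuclideanSpace ℝ (Fin 63) := fun u =>
    WithLp.toLp 2 (fun k => s u * (vec (c u) k : ℝ))
  have hφ : ∀ u k, φ u k = s u * (vec (c u) k : ℝ) := fun u k => rfl
  have hdist : ∀ u v, dist (φ u) (φ v) ^ 2 =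
      s u ^ 2 * (∑ k, (vec (c u) k : ℝ) * (vec (c u) k : ℝ)) +
      s v ^ 2 * (∑ k, (vec (c v) k : ℝ) * (vec (c v) k : ℝ)) -
      2 * (s u * s v * (∑ k, (vec (c u) k : ℝ) * (vec (c v) k : ℝ))) := by
    intro u v
    rw [dist_sq_eq]
    simp only [hφ]
    have e1 : ∀ a b : Fin 321, ∑ k, s a * (vec (c a) k : ℝ) * (s b * (vec (c b) k : ℝ)) =
        s a * s b * (∑ k, (vec (c a) k : ℝ) * (vec (c b) k : ℝ)) := by
      intro a b
      rw [Finset.mul_sum]
      apply Finset.sum_congr rfl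
      intro k _
      ring
    rw [e1, e1, e1]
    ring
  have hkey : ∀ u v : Fin 321, u ≠ v →
      dist (φ u) (φ v) ^ 2 ≤ 128 ∧ (adj (c u) (c v) = false → dist (φ u) (φ v) ^ 2 = 128) := by
    intro u v huv
    have hcuv : c u ≠ c v := fun h => huv (hcinj h)
    have hoff' := real_off vec adj hoff (c u) (c v) hcuv
    rw [hdist, real_self vec hself, real_self vec hself]
    rw [hc, hc] at hoff' ⊢
    have hu := u.isLt
    have hv := v.isLt
    by_cases h1 : (u : ℕ) < 320 <;> by_cases h2 : (v : ℕ) < 320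
    · have h3 : ¬ (320 ≤ (u : ℕ) ∧ 320 ≤ (v : ℕ)) := by omega
      rw [if_neg h3, add_zero] at hoff'
      simp only [s, if_pos h1, if_pos h2, hoff']
      cases adj (c u) (c v) <;> norm_num
    · have h3 : ¬ (320 ≤ (u : ℕ) ∧ 320 ≤ (v : ℕ)) := by omega
      rw [if_neg h3, add_zero] at hoff'
      simp only [s, if_pos h1, if_neg h2, hoff']
      cases adj (c u) (c v)
      · simp only [Bool.false_eq_true, if_false]
        constructor
        · nlinarith
        · intro _; nlinarith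
      · simp only [if_true]
        constructor
        · nlinarith
        · intro h; simp at h
    · have h3 : ¬ (320 ≤ (u : ℕ) ∧ 320 ≤ (v : ℕ)) := by omega
      rw [if_neg h3, add_zero] at hoff'
      simp only [s, if_neg h1, if_pos h2, hoff']
      cases adj (c u) (c v)
      · simp only [Bool.false_eq_true, if_false]
        constructor
        · nlinarith
        · intro _; nlinarith
      · simp only [if_true]
        constructor
        · nlinarith
        · intro h; simp at h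
    · exfalso
      apply huv
      apply Fin.ext
      omega
  refine core φ (√128) (by positivity) ?_ (fun _ => 1) 5 (63 + 1) ?_ (by norm_num) ?_
  · intro x y
    by_cases hxy : x = y
    · subst hxy
      rw [dist_self]
      exact Real.sqrt_nonneg _
    · exact dist_le_of_sq (hkey x y hxy).1
  · intro C hC
    have h1 := hcl (C.image c) (by
      intro u hu v hv huv
      rw [Finset.mem_image] at hu hv
      obtain ⟨x, hx, rfl⟩ := hu
      obtain ⟨y, hy, rfl⟩ := hv
      have hxy : x ≠ y := fun h => huv (by rw [h])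
      by_contra hadj
      have hadj' : adj (c x) (c y) = false := by
        cases h : adj (c x) (c y)
        · rfl
        · exact absurd h hadj
      exact not_lt_of_sq ((hkey x y hxy).2 hadj') (hC x hx y hy hxy))
    rw [Finset.card_image_of_injective C hcinj] at h1
    simpa using h1
  · simp

theorem case_succ (n : ℕ)
    (hself : ∀ u, ∑ k, vec u k * vec u k = if (u : ℕ) < 320 then 60 else 52)
    (hoff : ∀ u v, u ≠ v → (∑ k, vec u k * vec v k) +
      (if 320 ≤ (u : ℕ) ∧ 320 ≤ (v : ℕ) then 8 else 0) = if adj u v then 12 else -4)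
    (hcl : ∀ C : Finset (Fin 326), (∀ u ∈ C, ∀ v ∈ C, u ≠ v → adj u v = true) → C.card ≤ 5) :
    ∃ Y : Set (EuclideanSpace ℝ (Fin (64 + n))), Y.Finite ∧ 0 < Metric.diam Y ∧
      ¬ ∃ P : Fin (64 + n + 1) → Set (EuclideanSpace ℝ (Fin (64 + n))),
        (⋃ i, P i) = Y ∧ ∀ i, Metric.diam (P i) < Metric.diam Y := by
  classical
  obtain ⟨β, hβ⟩ : ∃ β : ℝ, (n : ℝ) * β ^ 2 + 16 * β = 4 := by
    have ht : √(64 + 4 * (n : ℝ)) ^ 2 = 64 + 4 * (n : ℝ) := Real.sq_sqrt (by positivity)
    have ht0 : 0 ≤ √(64 + 4 * (n : ℝ)) := Real.sqrt_nonneg _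
    generalize √(64 + 4 * (n : ℝ)) = t at ht ht0
    refine ⟨4 / (8 + t), ?_⟩
    have hb : (8 + t) * (4 / (8 + t)) = 4 := by
      field_simp
    generalize 4 / (8 + t) = β at hb
    linear_combination ((t * β - 8 * β + 4) / 4) * hb - (β ^ 2 / 4) * ht
  have h2 : √(2 : ℝ) ^ 2 = 2 := Real.sq_sqrt (by norm_num)
  let c : Fin 326 → ℝ := fun u => if (u : ℕ) < 320 then 0 else 2 * √2
  let φ : Fin 326 ⊕ Fin n → EuclideanSpace ℝ (Fin 63 ⊕ Fin 1 ⊕ Fin n) := fun x =>
    WithLp.toLp 2 (Sum.elim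
      (fun u => Sum.elim (fun k => (vec u k : ℝ)) (Sum.elim (fun _ => c u) (fun _ => 0)))
      (fun i => Sum.elim (fun _ => 0) (Sum.elim (fun _ => 0)
        (fun j => (if j = i then 8 else 0) + β))) x)
  have hl1 : ∀ u k, φ (Sum.inl u) (Sum.inl k) = (vec u k : ℝ) := fun u k => rfl
  have hl2 : ∀ u k, φ (Sum.inl u) (Sum.inr (Sum.inl k)) = c u := fun u k => rfl
  have hl3 : ∀ u k, φ (Sum.inl u) (Sum.inr (Sum.inr k)) = 0 := fun u k => rfl
  have hr1 : ∀ i k, φ (Sum.inr i) (Sum.inl k) = 0 := fun u k => rfl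
  have hr2 : ∀ i k, φ (Sum.inr i) (Sum.inr (Sum.inl k)) = 0 := fun u k => rfl
  have hr3 : ∀ i k, φ (Sum.inr i) (Sum.inr (Sum.inr k)) = (if k = i then 8 else 0) + β :=
    fun u k => rfl
  have hcself : ∀ u : Fin 326, c u * c u = if (u : ℕ) < 320 then 0 else 8 := by
    intro u
    simp only [c]
    split_ifs
    · ring
    · nlinarith
  have hcoff : ∀ u v : Fin 326, c u * c v = if 320 ≤ (u : ℕ) ∧ 320 ≤ (v : ℕ) then 8 else 0 := by
    intro u v
    simp only [c]
    by_cases h1 : (u : ℕ) < 320 <;> by_cases h3 : (v : ℕ) < 320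
    · have hn : ¬ (320 ≤ (u : ℕ) ∧ 320 ≤ (v : ℕ)) := by omega
      rw [if_neg hn, if_pos h1]; ring
    · have hn : ¬ (320 ≤ (u : ℕ) ∧ 320 ≤ (v : ℕ)) := by omega
      rw [if_neg hn, if_pos h1]; ring
    · have hn : ¬ (320 ≤ (u : ℕ) ∧ 320 ≤ (v : ℕ)) := by omega
      rw [if_neg hn, if_pos h3]; ring
    · have hn : 320 ≤ (u : ℕ) ∧ 320 ≤ (v : ℕ) := by omega
      rw [if_pos hn, if_neg h1, if_neg h3]; nlinarith
  have gll : ∀ u, ∑ k, φ (Sum.inl u) k * φ (Sum.inl u) k = 60 := by
    intro u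
    rw [Fintype.sum_sum_type, Fintype.sum_sum_type]
    simp only [hl1, hl2, hl3]
    rw [real_self vec hself u]
    simp only [Finset.sum_const, Finset.card_univ, Fintype.card_fin, one_smul, mul_zero, smul_zero,
      add_zero]
    rw [hcself]
    split_ifs <;> norm_num
  have gllo : ∀ u v, u ≠ v → ∑ k, φ (Sum.inl u) k * φ (Sum.inl v) k =
      if adj u v then 12 else -4 := by
    intro u v huv
    rw [Fintype.sum_sum_type, Fintype.sum_sum_type]
    simp only [hl1, hl2, hl3]
    simp only [Finset.sum_const, Finset.card_univ, Fintype.card_fin, one_smul, mul_zero, smul_zero,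
      add_zero]
    rw [hcoff, real_off vec adj hoff u v huv]
  have glr : ∀ u i, ∑ k, φ (Sum.inl u) k * φ (Sum.inr i) k = 0 := by
    intro u i
    rw [Fintype.sum_sum_type, Fintype.sum_sum_type]
    simp only [hl1, hl2, hl3, hr1, hr2, hr3]
    simp
  have grl : ∀ u i, ∑ k, φ (Sum.inr i) k * φ (Sum.inl u) k = 0 := by
    intro u i
    rw [← glr u i]
    exact Finset.sum_congr rfl (fun k _ => mul_comm _ _)
  have grr : ∀ i j, ∑ k, φ (Sum.inr i) k * φ (Sum.inr j) k = if i = j then 68 else 4 := by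
    intro i j
    rw [Fintype.sum_sum_type, Fintype.sum_sum_type]
    simp only [hr1, hr2, hr3]
    have e1 : ∀ k : Fin n, ((if k = i then (8 : ℝ) else 0) + β) * ((if k = j then 8 else 0) + β) =
        (if k = i then (if i = j then 64 else 0) else 0) + (if k = i then 8 * β else 0) +
          (if k = j then 8 * β else 0) + β ^ 2 := by
      intro k
      by_cases hki : k = i <;> by_cases hkj : k = j
      · subst hki; subst hkj; simp; ring
      · subst hki; simp only [if_true, if_neg hkj]; ring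
      · subst hkj
        have : i ≠ k := fun h => hki h.symm
        simp only [if_true, if_neg hki]; ring
      · simp only [if_neg hki, if_neg hkj]; ring
    simp_rw [e1]
    rw [Finset.sum_add_distrib, Finset.sum_add_distrib, Finset.sum_add_distrib]
    simp only [Finset.sum_ite_eq', Finset.mem_univ, if_true, Finset.sum_const, Finset.card_univ,
      Fintype.card_fin, nsmul_eq_mul, mul_zero, zero_add]
    split_ifs <;> linarith
  have hD1 : ∀ u v, u ≠ v → dist (φ (Sum.inl u)) (φ (Sum.inl v)) ^ 2 =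
      if adj u v then 96 else 128 := by
    intro u v huv
    rw [dist_sq_eq, gll, gll, gllo u v huv]
    split_ifs <;> norm_num
  have hD2 : ∀ u i, dist (φ (Sum.inl u)) (φ (Sum.inr i)) ^ 2 = 128 := by
    intro u i
    rw [dist_sq_eq, gll, grr, glr, if_pos rfl]
    norm_num
  have hD3 : ∀ i j, i ≠ j → dist (φ (Sum.inr i)) (φ (Sum.inr j)) ^ 2 = 128 := by
    intro i j hij
    rw [dist_sq_eq, grr, grr, grr, if_pos rfl, if_pos rfl, if_neg hij]
    norm_num
  refine core_euclid (64 + n) (by simp; omega) φ (√128) (by positivity) ?_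
    (Sum.elim (fun _ => 1) (fun _ => 5)) 5 (64 + n + 1) ?_ (by omega) ?_
  · rintro (u | i) (v | j)
    · by_cases h : u = v
      · subst h; rw [dist_self]; exact Real.sqrt_nonneg _
      · apply dist_le_of_sq
        rw [hD1 u v h]
        split_ifs <;> norm_num
    · exact dist_le_of_sq (hD2 u j).le
    · rw [dist_comm]
      exact dist_le_of_sq (hD2 v i).le
    · by_cases h : i = j
      · subst h; rw [dist_self]; exact Real.sqrt_nonneg _
      · exact dist_le_of_sq (hD3 i j h).le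
  · intro C hC
    by_cases hex : ∃ i, Sum.inr i ∈ C
    · obtain ⟨i, hi⟩ := hex
      have hCi : C ⊆ {Sum.inr i} := by
        intro x hx
        rw [Finset.mem_singleton]
        by_contra hne
        have hlt := hC x hx (Sum.inr i) hi hne
        rcases x with u | j
        · exact not_lt_of_sq (hD2 u i) hlt
        · exact not_lt_of_sq (hD3 j i (fun h => hne (by rw [h]))) hlt
      calc ∑ x ∈ C, (Sum.elim (fun _ => 1) (fun _ => 5) x : ℕ)
          ≤ ∑ x ∈ {Sum.inr i}, (Sum.elim (fun _ => 1) (fun _ => 5) x : ℕ) :=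
            Finset.sum_le_sum_of_subset hCi
        _ = 5 := by simp
    · push Not at hex
      let C' : Finset (Fin 326) := Finset.univ.filter (fun u => (Sum.inl u : Fin 326 ⊕ Fin n) ∈ C)
      have hCC : C = C'.image Sum.inl := by
        ext x
        rw [Finset.mem_image]
        constructor
        · intro hx
          rcases x with u | j
          · exact ⟨u, by simp [C', hx], rfl⟩
          · exact absurd hx (hex j)
        · rintro ⟨u, hu, rfl⟩
          simpa [C'] using hu
      have h1 := hcl C' (by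
        intro u hu v hv huv
        have hu' : (Sum.inl u : Fin 326 ⊕ Fin n) ∈ C := by simpa [C'] using hu
        have hv' : (Sum.inl v : Fin 326 ⊕ Fin n) ∈ C := by simpa [C'] using hv
        have hlt := hC _ hu' _ hv' (fun h => huv (Sum.inl_injective h))
        by_contra hadj
        refine not_lt_of_sq ?_ hlt
        rw [hD1 u v huv, if_neg hadj])
      rw [hCC, Finset.sum_image (fun a _ b _ h => Sum.inl_injective h)]
      simpa using h1
  · rw [Fintype.sum_sum_type]
    simp
    omega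

theorem borsuk_of_data
    (hself : ∀ u, ∑ k, vec u k * vec u k = if (u : ℕ) < 320 then 60 else 52)
    (hoff : ∀ u v, u ≠ v → (∑ k, vec u k * vec v k) +
      (if 320 ≤ (u : ℕ) ∧ 320 ≤ (v : ℕ) then 8 else 0) = if adj u v then 12 else -4)
    (hcl : ∀ C : Finset (Fin 326), (∀ u ∈ C, ∀ v ∈ C, u ≠ v → adj u v = true) → C.card ≤ 5) :
    ∀ d : ℕ, 63 ≤ d → ∃ Y : Set (EuclideanSpace ℝ (Fin d)), Y.Finite ∧ 0 < Metric.diam Y ∧
      ¬ ∃ P : Fin (d + 1) → Set (EuclideanSpace ℝ (Fin d)),
        (⋃ i, P i) = Y ∧ ∀ i, Metric.diam (P i) < Metric.diam Y := by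
  intro d hd
  rcases Nat.eq_or_lt_of_le hd with h | h
  · subst h
    exact case_zero vec adj hself hoff hcl
  · obtain ⟨n, rfl⟩ : ∃ n, d = 64 + n := ⟨d - 64, by omega⟩
    exact case_succ vec adj n hself hoff hcl

end data

end Vale.Agent.P052
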