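import Vale.Agent.P052.Kron
import Vale.Agent.P052.DataX
import Vale.Agent.P052.DataY
import Vale.Agent.P052.DataN

namespace Vale.Agent.P052

noncomputable def nth (l : List ℕ) : ℕ → ℕ :=
  List.rec (fun _ => 0) (fun a _ ih i => Nat.rec a (fun m _ => ih m) i) l

noncomputable def revd (n : ℕ) : ℕ → ℕ → ℕ :=
  Nat.rec (fun _ acc => acc)
    (fun _ ih x acc => ih (Nat.div x 16384) (Nat.add (Nat.mul acc 16384) (Nat.mod x 16384))) n

noncomputable def dsum (n : ℕ) : ℕ → ℕ :=
  Nat.rec (fun _ => 0) (fun _ ih x => Nat.add (Nat.mod x 16384) (ih (Nat.div x 16384))) n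

noncomputable def okd (n : ℕ) : ℕ → Bool :=
  Nat.rec (fun _ => true)
    (fun _ ih x => cond (Nat.ble (Nat.mod x 16384) 8) (ih (Nat.div x 16384)) false) n

noncomputable def dig (x k : ℕ) : ℕ := Nat.mod (Nat.div x (Nat.pow 16384 k)) 16384

noncomputable def vchk (i : ℕ) : Bool :=
  cond (okd 65 (nth xs i))
    (cond (Nat.beq (Nat.div (nth xs i) (Nat.pow 16384 65)) 0)
      (cond (Nat.beq (nth ys i)
          (Nat.add (revd 65 (nth xs i) 0) (Nat.mul (Nat.pow 16384 65) (Nat.mul 4 (dsum 65 (nth xs i))))))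
        (cond (Nat.beq (dig (nth xs i) 63) (cond (Nat.ble 320 i) 6 4))
          (Nat.beq (dig (nth xs i) 64) (cond (Nat.ble 320 i) 6 4)) false)
        false) false) false

noncomputable def rowc (x base : ℕ) (l : List ℕ) : ℕ → ℕ → Bool :=
  List.rec (fun _ _ => true)
    (fun y _ ih r d =>
      cond (Nat.beq
        (Nat.add (Nat.mod (Nat.div (Nat.mul x y) (Nat.pow 16384 64)) 16384) 1044)
        (Nat.add base (Nat.add (Nat.div y (Nat.pow 16384 65))
          (Nat.add (Nat.mul 16 (Nat.mod r 2)) (Nat.mul 64 (Nat.mod d 2))))))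
      (ih (Nat.div r 2) (Nat.div d 2)) false) l

noncomputable def chkrow (u : ℕ) : Bool :=
  rowc (nth xs u) (Nat.mul 4 (dsum 65 (nth xs u))) ys (nth nbs u) (Nat.pow 2 u)

noncomputable def allFrom (p : ℕ → Bool) (a n : ℕ) : Bool :=
  Nat.rec true (fun k ih => cond (p (Nat.add a k)) ih false) n

theorem allFrom_spec (p : ℕ → Bool) (a n : ℕ) (h : allFrom p a n = true) :
    ∀ k < n, p (a + k) = true := by
  induction n with
  | zero => intro k hk; omega
  | succ n ih =>
    intro k hk
    have h1 : cond (p (a + n)) (allFrom p a n) false = true := h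
    cases hp : p (a + n) with
    | false => rw [hp] at h1; simp at h1
    | true =>
      rw [hp] at h1
      simp only [cond_true] at h1
      rcases Nat.lt_succ_iff_lt_or_eq.mp hk with h2 | h2
      · exact ih h1 k h2
      · rw [h2]; exact hp

end Vale.Agent.P052
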