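import Vale.Agent.P052.GramDef

namespace Vale.Agent.P052

theorem vb0 : allFrom vchk 0 20 = true := by decide +kernel

theorem vb1 : allFrom vchk 20 20 = true := by decide +kernel

theorem vb2 : allFrom vchk 40 20 = true := by decide +kernel

theorem vb3 : allFrom vchk 60 20 = true := by decide +kernel

theorem vb4 : allFrom vchk 80 20 = true := by decide +kernel

theorem vb5 : allFrom vchk 100 20 = true := by decide +kernel

theorem vb6 : allFrom vchk 120 20 = true := by decide +kernel

theorem vb7 : allFrom vchk 140 20 = true := by decide +kernel

theorem vb8 : allFrom vchk 160 20 = true := by decide +kernel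

theorem vb9 : allFrom vchk 180 20 = true := by decide +kernel

theorem vb10 : allFrom vchk 200 20 = true := by decide +kernel

theorem vb11 : allFrom vchk 220 20 = true := by decide +kernel

theorem vb12 : allFrom vchk 240 20 = true := by decide +kernel

theorem vb13 : allFrom vchk 260 20 = true := by decide +kernel

theorem vb14 : allFrom vchk 280 20 = true := by decide +kernel

theorem vb15 : allFrom vchk 300 20 = true := by decide +kernel

theorem vb16 : allFrom vchk 320 6 = true := by decide +kernel

end Vale.Agent.P052
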