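import Mathlib.Algebra.BigOperators.Intervals
import Mathlib.Algebra.BigOperators.Ring.Finset
import Mathlib.Algebra.Order.BigOperators.Group.Finset
import Mathlib.Tactic.Ring
import Mathlib.Tactic.Linarith
import Mathlib.Tactic.NormNum

namespace Vale.Agent.P052

open Finset

def bwd (n : ℕ) (g : ℕ → ℕ) : ℕ := ∑ k ∈ range n, g k * 16384 ^ (n - 1 - k)

def fwd (n : ℕ) (f : ℕ → ℕ) : ℕ := ∑ k ∈ range n, f k * 16384 ^ k

theorem bwd_succ (n : ℕ) (g : ℕ → ℕ) :
    bwd (n + 2) g = g 0 * 16384 ^ (n + 1) + bwd (n + 1) (fun k => g (k + 1)) := by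
  unfold bwd
  rw [Finset.sum_range_succ']
  rw [add_comm]
  congr 1
  apply Finset.sum_congr rfl
  intro k hk
  rw [Finset.mem_range] at hk
  congr 2
  omega

theorem fwd_succ (n : ℕ) (f : ℕ → ℕ) :
    fwd (n + 1) f = f 0 + 16384 * fwd n (fun k => f (k + 1)) := by
  unfold fwd
  rw [Finset.sum_range_succ', Finset.mul_sum, add_comm]
  congr 1
  · simp
  · apply Finset.sum_congr rfl
    intro k _
    ring

theorem bwd_le (n : ℕ) : ∀ (g : ℕ → ℕ), (∀ k, g k ≤ 8) → bwd (n + 1) g ≤ 9 * 16384 ^ n := by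
  induction n with
  | zero =>
    intro g hg
    have := hg 0
    simp [bwd]
    omega
  | succ n ih =>
    intro g hg
    rw [bwd_succ]
    have h1 := ih (fun k => g (k + 1)) (fun k => hg (k + 1))
    have h0 := hg 0
    have h2 : g 0 * 16384 ^ (n + 1) ≤ 8 * 16384 ^ (n + 1) := Nat.mul_le_mul_right _ h0
    have h3 : (16384 : ℕ) ^ (n + 1) = 16384 * 16384 ^ n := by ring
    omega

theorem kron (n : ℕ) : ∀ (f g : ℕ → ℕ), (∀ k, f k ≤ 8) → (∀ k, g k ≤ 8) →
    ∃ L H : ℕ, fwd (n + 1) f * bwd (n + 1) g =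
      L + 16384 ^ n * (∑ k ∈ range (n + 1), f k * g k) + 16384 ^ (n + 1) * H ∧
      L * 16384 ≤ 72 * (n + 1) * 16384 ^ n := by
  induction n with
  | zero =>
    intro f g hf hg
    refine ⟨0, 0, ?_, by simp⟩
    simp [fwd, bwd]
  | succ n ih =>
    intro f g hf hg
    obtain ⟨L, H, h1, h2⟩ := ih (fun k => f (k + 1)) (fun k => g (k + 1))
      (fun k => hf (k + 1)) (fun k => hg (k + 1))
    refine ⟨f 0 * bwd (n + 1) (fun k => g (k + 1)) + 16384 * L,
      g 0 * fwd (n + 1) (fun k => f (k + 1)) + H, ?_, ?_⟩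
    · rw [bwd_succ, fwd_succ, Finset.sum_range_succ']
      have : (f 0 + 16384 * fwd (n + 1) fun k => f (k + 1)) *
          (g 0 * 16384 ^ (n + 1) + bwd (n + 1) fun k => g (k + 1)) =
          f 0 * g 0 * 16384 ^ (n + 1) + f 0 * (bwd (n + 1) fun k => g (k + 1)) +
          16384 ^ (n + 2) * (g 0 * fwd (n + 1) fun k => f (k + 1)) +
          16384 * ((fwd (n + 1) fun k => f (k + 1)) * (bwd (n + 1) fun k => g (k + 1))) := by
        ring
      rw [this, h1]
      ring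
    · have hG := bwd_le n (fun k => g (k + 1)) (fun k => hg (k + 1))
      have h0 := hf 0
      have h4 : f 0 * bwd (n + 1) (fun k => g (k + 1)) ≤ 8 * (9 * 16384 ^ n) :=
        Nat.mul_le_mul h0 hG
      have h5 : (16384 : ℕ) ^ (n + 1) = 16384 * 16384 ^ n := by ring
      rw [h5]
      nlinarith [h4, h2]

theorem digit_of_mul (f g : ℕ → ℕ) (hf : ∀ k, f k ≤ 8) (hg : ∀ k, g k ≤ 8) (Z : ℕ) :
    (fwd 65 f * (bwd 65 g + 16384 ^ 65 * Z)) / 16384 ^ 64 % 16384 =
      ∑ k ∈ range 65, f k * g k := by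
  obtain ⟨L, H, h1, h2⟩ := kron 64 f g hf hg
  have hL : L < 16384 ^ 64 := by
    have h3 : L * 16384 < 16384 ^ 64 * 16384 := by
      calc L * 16384 ≤ 72 * (64 + 1) * 16384 ^ 64 := h2
        _ < 16384 ^ 64 * 16384 := by norm_num
    exact Nat.lt_of_mul_lt_mul_right h3
  have hdot : ∑ k ∈ range 65, f k * g k < 16384 := by
    calc ∑ k ∈ range 65, f k * g k ≤ ∑ k ∈ range 65, 64 :=
          Finset.sum_le_sum (fun k _ => by
            calc f k * g k ≤ 8 * 8 := Nat.mul_le_mul (hf k) (hg k)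
              _ = 64 := by norm_num)
      _ < 16384 := by simp
  have e : fwd 65 f * (bwd 65 g + 16384 ^ 65 * Z) =
      L + 16384 ^ 64 * ((∑ k ∈ range 65, f k * g k) + 16384 * (H + fwd 65 f * Z)) := by
    rw [mul_add, h1]
    ring
  rw [e]
  generalize (∑ k ∈ range 65, f k * g k) = s at *
  rw [Nat.add_mul_div_left _ _ (by positivity), Nat.div_eq_of_lt hL, zero_add,
    Nat.add_mul_mod_self_left, Nat.mod_eq_of_lt hdot]

theorem fwd_digits (n x : ℕ) : fwd n (fun k => x / 16384 ^ k % 16384) = x % 16384 ^ n := by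
  unfold fwd
  induction n with
  | zero => simp [Nat.mod_one]
  | succ n ih => rw [Finset.sum_range_succ, ih, Nat.mod_pow_succ, mul_comm]

end Vale.Agent.P052
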